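import Vale.Agent.P097F.B.Defs
import Vale.Agent.P097S.Env
import Vale.Agent.P097S.Fin
import Vale.Agent.P097S.Sec
import Vale.Agent.P097S.M0

/-!
# P097F.B: the cone baseline, uniform in the height of the vertex
-/

set_option linter.all false

noncomputable section

namespace Vale.Agent.P097F.B

open Filter Topology Set Metric Vale.Agent.P097N Vale.Agent.P097S Vale.Agent.P097S.Env

theorem dt_mono {θ h Q : ℂ → ℂ} {Y : ℂ × ℂ → ℂ} {c : ℂ} {R r κ : ℝ} (D : Dt θ h Q Y c R κ)
    (kr : 2 * κ ≤ r) (rR : r ≤ R) : Dt θ h Q Y c r κ :=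
  have s : St r ⊆ St R := fun _ k => lt_of_lt_of_le k rR
  ⟨⟨ColL.st_open r, D.cv.dθ.mono s, D.cv.dh.mono s, D.cv.dQ.mono s, D.cv.c0,
    fun y hy => D.cv.ode y (s hy), fun y hy => D.cv.hq y (s hy)⟩, D.col, kr, D.law⟩

theorem envu : S_ENVU := by
  intro θ h Q Y c R κ DR a a0 a1
  have κ0 : 0 < κ := DR.col.hη
  have R0 : 0 < R := by linarith [DR.kr]
  obtain ⟨C₀, C0, hC⟩ := scol Y κ κ κ DR.col
  obtain ⟨e, e0, ea, eR⟩ : ∃ e : ℝ, 0 < e ∧ e ≤ a / 16 ∧ e * R ≤ κ / 16 := by
    refine ⟨min (a / 16) (κ / 16 / R), by positivity, min_le_left _ _, ?_⟩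
    rw [← le_div_iff₀ R0]
    exact min_le_right _ _
  obtain ⟨m, m0, me, m1⟩ : ∃ m : ℝ, 0 < m ∧ m ≤ e / 16 ∧ m ≤ 1 / 24576 :=
    ⟨min (e / 16) (1 / 24576), by positivity, min_le_left _ _, min_le_right _ _⟩
  have E1 : 1 ≤ 336 / e := by
    rw [le_div_iff₀ e0]
    linarith
  refine ⟨e, 336 / e, C₀, m, e0, by linarith, E1, C0, m0,
    fun r kr rR s d A hd hA hK w T hT S => ?_⟩
  have D : Dt θ h Q Y c r κ := dt_mono DR kr rR
  have r0 : 0 < r := by linarith
  have er : e * r ≤ κ / 16 := (mul_le_mul_of_nonneg_left rR e0.le).trans eR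
  have A0 : 0 < A := by linarith
  have T0 : 0 < T := by linarith
  have w0 : 0 < ‖w‖ := norm_pos_iff.2 S.w0
  have wb : w ∈ ball (0 : ℂ) κ := by
    rw [mem_ball_zero_iff]
    have := mul_le_mul_of_nonneg_right m1 κ0.le
    linarith [S.k]
  have main : ∀ x ∈ Cn r s (a / 2) T (κ / 4), ∀ b : ℂ, ‖b - x‖ ≤ e * (r - x.im) →
      LocE (Ph θ h) b (8 * ‖w‖) (336 / e * om A d (r - x.im) / (r - x.im)) ∧
        ∀ b', b' ≠ b → ‖b' - b‖ < 8 * ‖w‖ → k1 θ h b b' ≠ 0 := by
    intro x hx b hb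
    have xT : T < r - x.im := hx.2.1
    have τ0 : 0 < r - x.im := by linarith
    have g : ∀ y ∈ ball b (e * (r - x.im)),
        y ∈ Cn r s a d 0 ∧ y ∈ St r ∧ 7 / 8 * (r - x.im) ≤ r - y.im := fun y hy => by
      refine geo a1 hd hT κ0 e0 ea er hx ?_
      rw [mem_ball, dist_eq_norm] at hy
      have := norm_add_le (y - b) (b - x)
      rw [show y - b + (b - x) = y - x by ring] at this
      linarith
    have k := locE D.cv (b := b) (D := e * (r - x.im)) (M := 2 * om A d (r - x.im))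
      (ρ := 8 * ‖w‖) (fun y hy => (g y hy).2.1)
      (fun y hy => by
        obtain ⟨y1, -, y3⟩ := g y hy
        obtain ⟨k1, k2⟩ := hK y y1
        refine ⟨le_om A0 hd τ0 y3 (le_of_eq_of_le ?_ k1), le_om A0 hd τ0 y3 k2⟩
        rw [norm_pow]
        ring)
      (by positivity)
      (by
        have t1 := mul_le_mul_of_nonneg_right me T0.le
        have t2 := mul_le_mul_of_nonneg_left xT.le e0.le
        linarith [S.t])
      (by
        have t1 := om_anti (A := A) hd T0 xT.le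
        have t2 := om_pos A0 hd T0
        have t3 := mul_le_mul_of_nonneg_left t1 (sq_nonneg ‖w‖)
        have t4 := mul_le_mul_of_nonneg_right E1 (show 0 ≤ ‖w‖ ^ 2 * om A d T by positivity)
        have t5 := S.e
        nlinarith)
    rwa [show 168 * (2 * om A d (r - x.im)) / (e * (r - x.im)) =
      336 / e * om A d (r - x.im) / (r - x.im) by field_simp; ring] at k
  obtain ⟨hp, hv⟩ := hC w wb
  have sub : St (κ / 2) ⊆ St κ := fun x hx => by
    have h1 : |x.im| < κ / 2 := hx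
    show |x.im| < κ
    linarith
  have hv' : ∀ x ∈ St (κ / 2), x + w ∈ St (κ / 2) →
      ‖Y (x + w, w) - Y (x, w) - w‖ ≤ C₀ * ‖w‖ ^ 3 := fun x hx hx' => by
    have := hv (x + w) hx' (by rwa [add_sub_cancel_right])
    rwa [add_sub_cancel_right] at this
  refine ⟨fun x hx b hb => (main x hx b hb).1, ?_, hp, hv', fun x hx h1 h2 h3 => ?_⟩
  · exact D.col.d.comp (differentiable_id.prodMk (differentiable_const w)).differentiableOn
      fun x hx => ⟨hx, wb⟩
  · have xT : T < r - x.im := hx.2.1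
    have c1 : 0 ≤ C₀ * ‖w‖ ^ 2 := by positivity
    have hb : ‖Y (x, w) - x‖ ≤ e * (r - x.im) := by
      have t1 := mul_le_mul_of_nonneg_right me T0.le
      have t2 := mul_le_mul_of_nonneg_left xT.le e0.le
      have t3 := mul_nonneg c1 r0.le
      have t4 := mul_pos e0 T0
      linarith [hp x (sub h2), S.ct]
    have c3 : C₀ * ‖w‖ ^ 3 ≤ ‖w‖ / 2 := by
      have := mul_le_mul_of_nonneg_right (S.c.trans m1) w0.le
      nlinarith
    have near : ∀ z : ℂ, ‖z - w‖ ≤ ‖w‖ / 2 → z ≠ 0 ∧ ‖z‖ < 8 * ‖w‖ := fun z hz => by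
      refine ⟨?_, ?_⟩
      · rintro rfl
        rw [zero_sub, norm_neg] at hz
        linarith
      · have := norm_add_le (z - w) w
        rw [sub_add_cancel] at this
        linarith
    obtain ⟨n1, n2⟩ := near _ ((hv' x h2 h3).trans c3)
    obtain ⟨n3, n4⟩ := near _ ((hv x h2 h1).trans c3)
    have k1 := (main x hx _ hb).2 _ (sub_ne_zero.1 n1) n2
    have k2 := (main x hx _ hb).2 _ (sub_ne_zero.1 n3).symm (by rwa [norm_sub_rev])
    have l := D.law x (sub h2) w wb (sub h1) (sub h3)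
    unfold EE at l
    simp only [Ph]
    field_simp
    linear_combination -2 * l

theorem cbu (hC : S_CBAU) : S_CBU := by
  classical
  intro θ h Q Y c R κ DR a a0 a1
  have κ0 := DR.col.hη
  have kR := DR.kr
  have R0 : 0 < R := by linarith
  obtain ⟨ε, E, C₀, m₀, ε0, ε1, E1, C0, m0, hF⟩ := envu θ h Q Y c R κ DR a a0 a1
  obtain ⟨a₁, c₀, b0, b1, c0, c1, hy⟩ := hC R κ (a / 2) ε E C₀ m₀ κ0 kR (by linarith) (by linarith)
    ε0 (by linarith) E1 C0 m0
  have l0 : 0 < min a₁ (κ / R) / 8 := by positivity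
  refine ⟨a₁, min a₁ (κ / R) / 8 * c₀, b0, by linarith, mul_pos l0 c0,
    fun r s d A kr rR d0 dr A1 hK => ?_⟩
  have D : Dt θ h Q Y c r κ := dt_mono DR kr rR
  have r0 : 0 < r := by linarith
  have A0 : 0 < A := by linarith
  choose! y hy using hy r kr rR (Ph θ h) Y s d A (om A d) d0 dr A1 (wom A d A0 d0).1
    (wom A d A0 d0).2 D.col.d D.col.ev (hF r kr rR s d A d0 A1 hK)
  refine ⟨fun q => if q.2 = 0 then q.1 else y q.2 q.1, ?_⟩
  rw [mul_assoc, mul_div_assoc]
  refine FinL.chart joint D (by linarith) (by linarith) ε0 ε1 (by positivity) ?_ l0 ?_ ?_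
    (fun x => if_pos rfl) fun w hw => ?_
  · rw [div_le_iff₀ A0]
    have := mul_le_mul_of_nonneg_left (dr.trans rR) c0.le
    nlinarith
  · linarith [min_le_left a₁ (κ / R)]
  · have := (le_div_iff₀ R0).1 (min_le_right a₁ (κ / R))
    have := mul_le_mul_of_nonneg_left rR l0.le
    linarith
  · by_cases e : w = 0
    · subst e
      simp only [if_true]
      refine ⟨differentiableOn_id, fun x hx => ⟨fun g => (D.col.zero x ?_).symm, ?_⟩⟩
      · exact show |x.im| < κ from abs_lt.2 ⟨by linarith [hx.1], by linarith⟩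
      · rw [sub_self, norm_zero]
        exact mul_nonneg ε0.le (by linarith [hx.2.1])
    · simp only [if_neg e]
      exact hy w e (mem_ball_zero_iff.1 hw)

end Vale.Agent.P097F.B
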