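import Vale.Agent.P097F.B.Defs

/-! # P097F.B: the cone bounds -/

set_option linter.all false

noncomputable section

namespace Vale.Agent.P097F.B

open Filter Topology Set Metric Complex
open Vale.Agent.P097S (Cn Kc)

namespace ConeA

theorem back {W u d μ ta E : ℝ} (hu : 0 < u) (hd : 0 < d) (hμ : 0 < μ) (ht : 0 < ta)
    (h : u ^ 4 * W * (μ * ta) ^ 3 ≤ 16 * (u * E) ^ 4) :
    W * (d * ta) ^ 4 * (d / μ) ≤ (2 * (d / μ) * E) ^ 4 * (d * ta) := by
  have h1 : W * (μ * ta) ^ 3 ≤ 16 * E ^ 4 :=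
    le_of_mul_le_mul_left (a := u ^ 4) (by nlinarith) (by positivity)
  have h2 := mul_le_mul_of_nonneg_right h1 (show 0 ≤ d ^ 5 * ta / μ ^ 4 by positivity)
  calc _ = W * (μ * ta) ^ 3 * (d ^ 5 * ta / μ ^ 4) := by field_simp
    _ ≤ _ := h2
    _ = _ := by field_simp; ring

theorem far {Z t ta μ C k T : ℝ} (hZ : 0 ≤ Z) (hμ : 0 < μ) (hk : 0 < k) (ht : 0 < ta) (h1 : ta ≤ t)
    (hT : T ≤ t) (hC : C ^ 2 * μ ^ 15 / k ^ 5 ≤ T) (h : (Z * t ^ 2) ^ 5 ≤ C * t ^ 2) :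
    Z ^ 2 * (μ * ta) ^ 3 ≤ k := by
  have t0 : 0 < t := ht.trans_le h1
  have h2 : Z ^ 5 * t ^ 8 ≤ C := le_of_mul_le_mul_right (a := t ^ 2) (by nlinarith) (by positivity)
  have h3 : (Z ^ 5 * t ^ 8) ^ 2 ≤ C ^ 2 := pow_le_pow_left₀ (by positivity) h2 2
  have h4 := hC.trans hT
  rw [div_le_iff₀ (by positivity)] at h4
  have h5 : (Z ^ 2 * (μ * t) ^ 3) ^ 5 ≤ k ^ 5 := by
    refine le_of_mul_le_mul_right (a := t) ?_ t0
    calc (Z ^ 2 * (μ * t) ^ 3) ^ 5 * t = (Z ^ 5 * t ^ 8) ^ 2 * μ ^ 15 := by ring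
      _ ≤ C ^ 2 * μ ^ 15 := by gcongr
      _ ≤ _ := by linarith
  have h6 := le_of_pow_le_pow_left₀ (by norm_num) hk.le h5
  exact le_trans (by gcongr) h6

theorem four {x y δ : ℝ} (hx : 0 ≤ x) (h : x ≤ y + δ) : x ^ 4 ≤ 8 * y ^ 4 + 8 * δ ^ 4 := by
  have h1 : x ^ 2 ≤ 2 * y ^ 2 + 2 * δ ^ 2 := by nlinarith [sq_nonneg (y - δ)]
  have h2 : (x ^ 2) ^ 2 ≤ (2 * y ^ 2 + 2 * δ ^ 2) ^ 2 := pow_le_pow_left₀ (by positivity) h1 2
  nlinarith [sq_nonneg (y ^ 2 - δ ^ 2)]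

end ConeA

open ConeA

theorem cone : S_CONE := by
  intro R ρ η μ θ Q g b l s d u hW hQ hX hρ
  obtain ⟨C, hC⟩ := hW.far
  have μ0 := hX.μ0
  have gb : 0 < ‖g b‖ := norm_pos_iff.2 hX.ne
  have ρμ : 0 < ρ / μ := by positivity
  obtain ⟨k, hk⟩ : ∃ k : ℝ, k = (‖g b‖ * Real.exp (-ρ)) ^ 4 := ⟨_, rfl⟩
  have k0 : 0 < k := by rw [hk]; positivity
  obtain ⟨T, T1, T2⟩ : ∃ T : ℝ, ‖b‖ + ρ / μ ≤ T ∧ C ^ 2 * μ ^ 15 / k ^ 5 ≤ T :=
    ⟨max _ _, le_max_left _ _, le_max_right _ _⟩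
  have T0 : 0 < T := by linarith [norm_nonneg b]
  obtain ⟨δ, δ0, δ1, δ2, δ3⟩ : ∃ δ : ℝ, 0 < δ ∧ δ ≤ 1 ∧ δ ≤ ‖g b‖ / 10 ∧ δ ≤ k / (4 * (μ * T) ^ 3) :=
    ⟨min 1 (min (‖g b‖ / 10) (k / (4 * (μ * T) ^ 3))), by positivity, min_le_left _ _,
      (min_le_right _ _).trans (min_le_left _ _), (min_le_right _ _).trans (min_le_right _ _)⟩
  have δ4 : 4 * (δ ^ 4 * (μ * T) ^ 3) ≤ k := by
    rw [le_div_iff₀ (by positivity)] at δ3
    have : δ ^ 4 ≤ δ := pow_le_of_le_one δ0.le δ1 (by norm_num)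
    have : δ ^ 4 * (μ * T) ^ 3 ≤ δ * (μ * T) ^ 3 := by gcongr
    linarith
  have op : IsOpen {X : ℂ | X.im < 0} := isOpen_lt continuous_im continuous_const
  have cK : IsCompact (closedBall (0 : ℂ) (3 * T) ∩ {X | X.im ≤ -1}) :=
    (isCompact_closedBall _ _).inter_right (isClosed_le continuous_im continuous_const)
  have sK : closedBall (0 : ℂ) (3 * T) ∩ {X | X.im ≤ -1} ⊆ {X : ℂ | X.im < 0} := fun X h => by
    have : X.im ≤ -1 := h.2
    show X.im < 0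
    linarith
  have U1 := Metric.tendstoUniformlyOn_iff.1
    ((tendstoLocallyUniformlyOn_iff_forall_isCompact op).1 hW.cg _ sK cK) δ δ0
  have U2 := Metric.tendstoUniformlyOn_iff.1
    ((tendstoLocallyUniformlyOn_iff_forall_isCompact op).1 hQ _ sK cK) (δ ^ 2) (by positivity)
  filter_upwards [hC, U1, U2] with n hC U1 U2
  intro σ hσ y hy
  have d0 := hW.d0 n
  have u0 := hW.u0 n
  have nu : ∀ w : ℂ, ‖(u n : ℂ) * w‖ = u n * ‖w‖ := fun w => by
    rw [norm_mul, norm_real, Real.norm_of_nonneg u0.le]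
  have σi := abs_le.1 ((abs_im_le_norm σ).trans hσ)
  have σr := (abs_re_le_norm σ).trans hσ
  have top := hX.top
  obtain ⟨X, rfl⟩ : ∃ X : ℂ, y = pw R (s n) (d n) X := ⟨(y - s n - R * I) / d n, by
    have : (d n : ℂ) ≠ 0 := by exact_mod_cast d0.ne'
    unfold pw; field_simp; ring⟩
  have bi : (b + σ / μ).im = b.im + σ.im / μ := by rw [add_im, div_ofReal_im]
  have br : (b + σ / μ).re = b.re + σ.re / μ := by rw [add_re, div_ofReal_re]
  obtain ⟨ta, hta⟩ : ∃ ta : ℝ, ta = (b + σ / μ).im - X.im := ⟨_, rfl⟩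
  have e1 : (pw R (s n) (d n) b + (d n / μ : ℝ) * σ).im - (pw R (s n) (d n) X).im = d n * ta := by
    rw [hta, bi, add_im, im_ofReal_mul]; simp [pw]; ring
  have e2 : (pw R (s n) (d n) X).re - (pw R (s n) (d n) b + (d n / μ : ℝ) * σ).re =
      d n * (X.re - (b + σ / μ).re) := by
    rw [br, add_re, re_ofReal_mul]; simp [pw]; ring
  have e3 : R - (pw R (s n) (d n) X).im = d n * -X.im := by simp [pw]
  have e4 : (pw R (s n) (d n) X).re - s n = d n * X.re := by simp [pw]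
  obtain ⟨y0, y1, y2⟩ := hy
  rw [e1] at y1 y2 ⊢
  rw [e2, one_mul, abs_mul, abs_of_pos d0] at y2
  have y3 : |X.re - (b + σ / μ).re| ≤ ta := (lt_of_mul_lt_mul_left y2 d0.le).le
  have y4 : 1 ≤ μ * ta := by
    rw [div_lt_iff₀ μ0] at y1
    have : d n * 1 < d n * (μ * ta) := by linarith
    exact (lt_of_mul_lt_mul_left this d0.le).le
  have ta0 : 0 < ta := (pos_iff_pos_of_mul_pos (one_pos.trans_le y4)).1 μ0
  have si : σ.im / μ ≤ ρ / μ := by gcongr; exact σi.2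
  have sr : |σ.re / μ| ≤ ρ / μ := by rw [abs_div, abs_of_pos μ0]; gcongr
  have t1 : ta + 1 ≤ -X.im := by rw [hta, bi]; linarith
  have xr : |X.re| ≤ T + -X.im := by
    have h1 := abs_add_le (X.re - (b + σ / μ).re) (b + σ / μ).re
    have h2 := abs_add_le b.re (σ.re / μ)
    rw [sub_add_cancel] at h1
    rw [← br] at h2
    linarith [abs_re_le_norm b]
  have hb := U1 b ⟨by rw [mem_closedBall_zero_iff]; linarith, by show b.im ≤ -1; linarith⟩
  rw [dist_eq_norm] at hb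
  have hb2 : 9 / 10 * ‖g b‖ ≤ u n * ‖deriv θ (pw R (s n) (d n) b)‖ := by
    have := norm_sub_norm_le (g b) (u n * deriv θ (pw R (s n) (d n) b))
    rw [nu] at this
    linarith
  obtain ⟨k', hk'⟩ : ∃ k' : ℝ, k' = (‖g b‖ * Real.exp σ.im) ^ 4 := ⟨_, rfl⟩
  have kk : k ≤ k' := by rw [hk, hk']; gcongr; exact σi.1
  have hr : 10 * k' ≤ 16 * (u n * (‖deriv θ (pw R (s n) (d n) b)‖ * Real.exp σ.im)) ^ 4 := by
    have h1 : (9 / 10 * ‖g b‖ * Real.exp σ.im) ^ 4 ≤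
        (u n * ‖deriv θ (pw R (s n) (d n) b)‖ * Real.exp σ.im) ^ 4 := by gcongr
    have h2 : (9 / 10 * ‖g b‖ * Real.exp σ.im) ^ 4 = (9 / 10) ^ 4 * k' := by rw [hk']; ring
    rw [h2, mul_assoc] at h1
    linarith
  have key : u n ^ 4 * ‖deriv θ (pw R (s n) (d n) X)‖ ^ 4 * (μ * ta) ^ 3 ≤ 10 * k' ∧
      u n ^ 4 * ‖Q (pw R (s n) (d n) X)‖ ^ 2 * (μ * ta) ^ 3 ≤ 10 * k' := by
    rcases le_total (-X.im) T with h | h
    · have xK : X ∈ closedBall (0 : ℂ) (3 * T) ∩ {X | X.im ≤ -1} := by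
        refine ⟨?_, by show X.im ≤ -1; linarith⟩
        rw [mem_closedBall_zero_iff]
        have := norm_le_abs_re_add_abs_im X
        rw [abs_of_nonpos (by linarith : X.im ≤ 0)] at this
        linarith
      have a1 := U1 X xK
      have a2 := U2 X xK
      rw [dist_comm, dist_eq_norm] at a1
      rw [dist_comm, dist_zero_right, norm_mul, norm_pow, norm_real,
        Real.norm_of_nonneg u0.le] at a2
      have a3 := hX.dom σ X hσ (hta ▸ y4) (hta ▸ y3)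
      rw [← hta, ← hk'] at a3
      have a4 : u n * ‖deriv θ (pw R (s n) (d n) X)‖ ≤ ‖g X‖ + δ := by
        have := norm_sub_norm_le (u n * deriv θ (pw R (s n) (d n) X)) (g X)
        rw [nu] at this
        linarith
      have a5 := four (by positivity) a4
      have a6 : δ ^ 4 * (μ * ta) ^ 3 ≤ δ ^ 4 * (μ * T) ^ 3 := by gcongr; linarith
      have a7 : (u n ^ 2 * ‖Q (pw R (s n) (d n) X)‖) ^ 2 ≤ (δ ^ 2) ^ 2 :=
        pow_le_pow_left₀ (by positivity) a2.le 2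
      have a8 := mul_le_mul_of_nonneg_right a5 (show 0 ≤ (μ * ta) ^ 3 by positivity)
      have a9 := mul_le_mul_of_nonneg_right a7 (show 0 ≤ (μ * ta) ^ 3 by positivity)
      constructor
      · calc _ = (u n * ‖deriv θ (pw R (s n) (d n) X)‖) ^ 4 * (μ * ta) ^ 3 := by ring
          _ ≤ _ := by linarith
      · calc _ = (u n ^ 2 * ‖Q (pw R (s n) (d n) X)‖) ^ 2 * (μ * ta) ^ 3 := by ring
          _ ≤ (δ ^ 2) ^ 2 * (μ * ta) ^ 3 := a9
          _ = δ ^ 4 * (μ * ta) ^ 3 := by ring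
          _ ≤ _ := by linarith
    · have a1 := hC _ y0.le (by rw [e3]; exact le_mul_of_one_le_right d0.le (by linarith)) (by
        rw [e3, e4, abs_mul, abs_of_pos d0, mul_left_comm]
        exact mul_le_mul_of_nonneg_left (by linarith) d0.le)
      rw [e3, mul_div_cancel_left₀ _ d0.ne'] at a1
      have a2 := far (Z := P097M.Gs (deriv θ) Q (pw R (s n) (d n) X) * u n ^ 2) (t := -X.im)
        (C := C) (by unfold P097M.Gs; positivity) μ0 k0 ta0 (by linarith) h T2 (by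
          refine le_trans (le_of_eq ?_) a1; ring)
      unfold P097M.Gs at a2
      have A0 := norm_nonneg (deriv θ (pw R (s n) (d n) X))
      have B0 := norm_nonneg (Q (pw R (s n) (d n) X))
      generalize ‖deriv θ (pw R (s n) (d n) X)‖ = A at A0 a2 ⊢
      generalize ‖Q (pw R (s n) (d n) X)‖ = B at B0 a2 ⊢
      constructor
      · calc _ = (A ^ 2 * u n ^ 2) ^ 2 * (μ * ta) ^ 3 := by ring
          _ ≤ ((A ^ 2 + B) * u n ^ 2) ^ 2 * (μ * ta) ^ 3 := by gcongr; linarith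
          _ ≤ _ := by linarith
      · calc _ = (B * u n ^ 2) ^ 2 * (μ * ta) ^ 3 := by ring
          _ ≤ ((A ^ 2 + B) * u n ^ 2) ^ 2 * (μ * ta) ^ 3 := by gcongr; linarith [sq_nonneg A]
          _ ≤ _ := by linarith
  constructor
  · rw [mul_pow, mul_assoc (2 * (d n / μ))]
    exact back u0 d0 μ0 ta0 (key.1.trans hr)
  · rw [mul_pow, ← pow_mul, mul_assoc (2 * (d n / μ))]
    exact back u0 d0 μ0 ta0 (key.2.trans hr)

end Vale.Agent.P097F.B
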