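import Vale.Agent.P097F.B.Defs

/-!
# P097F.B, row 2909: levels of the curve from levels of the limit
-/

set_option linter.all false

noncomputable section

namespace Vale.Agent.P097F.B

open Filter Topology Set Metric Complex

namespace Lim

theorem pw_add (R s d μ : ℝ) (b σ : ℂ) :
    pw R s d b + (d / μ : ℝ) * σ = pw R s d (b + σ / μ) := by
  simp only [pw]
  push_cast
  ring

theorem pw_im (R s d : ℝ) (b : ℂ) : (pw R s d b).im = R + d * b.im := by simp [pw]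

theorem near {A A' B B' E : ℂ} {δ η e : ℝ} (hη : 0 < η) (hB : B ≠ 0) (h1 : ‖A - A'‖ ≤ δ)
    (h2 : ‖B - B'‖ ≤ δ) (hE : ‖E‖ ≤ e) (h3 : ‖A * E / B - 1‖ ≤ η / 2) (h4 : δ ≤ ‖B‖ / 2)
    (h5 : δ * (e + 1 + η) ≤ η * ‖B‖ / 2) : ‖A' * E / B' - 1‖ ≤ η := by
  have b0 : 0 < ‖B‖ := norm_pos_iff.2 hB
  have k1 : ‖B‖ - δ ≤ ‖B'‖ := by linarith [norm_sub_norm_le B B']
  have b1 : 0 < ‖B'‖ := by linarith
  have hB' : B' ≠ 0 := norm_pos_iff.1 b1
  rw [div_sub_one hB, norm_div, div_le_iff₀ b0] at h3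
  rw [div_sub_one hB', norm_div, div_le_iff₀ b1]
  have d0 : 0 ≤ δ := (norm_nonneg _).trans h1
  have k2 : ‖(A - A') * E‖ ≤ δ * e := by
    rw [norm_mul]
    exact mul_le_mul h1 hE (norm_nonneg _) d0
  have k3 : A' * E - B' = (A * E - B) - (A - A') * E + (B - B') := by ring
  have k4 := norm_add_le ((A * E - B) - (A - A') * E) (B - B')
  have k5 := norm_sub_le (A * E - B) ((A - A') * E)
  have k6 := mul_le_mul_of_nonneg_left k1 hη.le
  rw [k3]
  linarith

end Lim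

open Lim in
theorem lim (hC : S_CONE) : S_LIM := by
  intro R ρ η μ θ Q g b l s d u hR hl W Z X hρ hη Λ
  have m0 := X.μ0
  have b0 : 0 < ‖g b‖ := norm_pos_iff.2 X.ne
  have op : IsOpen {X : ℂ | X.im < 0} := isOpen_lt continuous_im continuous_const
  have r0 : 0 ≤ ρ / μ := div_nonneg (by linarith) m0.le
  have sub : closedBall b (ρ / μ) ⊆ {X : ℂ | X.im < 0} := fun z hz => by
    have h1 := abs_im_le_norm (z - b)
    rw [mem_closedBall, dist_eq_norm] at hz
    have h2 := le_abs_self (z - b).im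
    rw [sub_im] at h2 h1
    have := X.top
    show z.im < 0
    linarith
  have mem : ∀ σ : ℂ, ‖σ‖ ≤ ρ → b + σ / μ ∈ closedBall b (ρ / μ) := fun σ hσ => by
    rw [mem_closedBall, dist_eq_norm, add_sub_cancel_left, norm_div, norm_real, Real.norm_eq_abs,
      abs_of_pos m0]
    exact div_le_div_of_nonneg_right hσ m0.le
  have u1 := Metric.tendstoUniformlyOn_iff.1 ((tendstoLocallyUniformlyOn_iff_forall_isCompact op).1
    W.cg _ sub (isCompact_closedBall b (ρ / μ)))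
  have u2 := Metric.tendstoUniformlyOn_iff.1 ((tendstoLocallyUniformlyOn_iff_forall_isCompact op).1
    Z _ sub (isCompact_closedBall b (ρ / μ)))
  have e0 : 0 < Real.exp ρ + 1 + η := by positivity
  obtain ⟨δ, δ0, δ1, δ2⟩ : ∃ δ : ℝ, 0 < δ ∧ δ ≤ ‖g b‖ / 2 ∧
      δ * (Real.exp ρ + 1 + η) ≤ η * ‖g b‖ / 2 :=
    ⟨min (‖g b‖ / 2) (η * ‖g b‖ / 2 / (Real.exp ρ + 1 + η)), by positivity, min_le_left _ _,
      (le_div_iff₀ e0).1 (min_le_right _ _)⟩
  have L0 : 0 < (|Λ| + 1) * μ := by positivity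
  have v1 : ∀ᶠ n in l, u n / d n < ‖g b‖ / 2 / ((|Λ| + 1) * μ) :=
    W.ul.eventually (gt_mem_nhds (by positivity))
  have v2 : ∀ᶠ n in l, d n * (ρ / μ - b.im) < R / 4 := by
    have := W.dl.mul_const (ρ / μ - b.im)
    rw [zero_mul] at this
    exact this.eventually (gt_mem_nhds (by positivity))
  obtain ⟨n, k1, k2, k3, k4, k5⟩ := ((u1 δ δ0).and ((u2 ((‖g b‖ / 2) ^ 2 * Real.exp (-ρ))
    (by positivity)).and (v1.and (v2.and (hC R ρ (η / 2) μ θ Q g b l s d u W Z X hρ))))).exists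
  have d0 := W.d0 n
  have u0 := W.u0 n
  have nu : ‖(u n : ℂ)‖ = u n := by rw [norm_real, Real.norm_eq_abs, abs_of_pos u0]
  have c0 := k1 b (mem_closedBall_self r0)
  rw [dist_eq_norm] at c0
  have c1 : ‖g b‖ / 2 ≤ u n * ‖deriv θ (pw R (s n) (d n) b)‖ := by
    have := norm_sub_norm_le (g b) (u n * deriv θ (pw R (s n) (d n) b))
    rw [norm_mul, nu] at this
    linarith
  have G0 : 0 < ‖deriv θ (pw R (s n) (d n) b)‖ := by
    by_contra h
    have := mul_nonpos_of_nonneg_of_nonpos u0.le (not_lt.1 h)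
    linarith
  refine ⟨‖deriv θ (pw R (s n) (d n) b)‖, d n / μ, pw R (s n) (d n) b, ?_, div_pos d0 m0, G0,
    ?_, ?_, rfl, fun σ hσ => ?_, fun σ hσ => ?_, k5⟩
  · rw [div_lt_div_iff₀ d0 L0] at k3
    rw [div_mul_eq_mul_div, le_div_iff₀ m0]
    have a1 : u n * ((|Λ| + 1) * μ) ≤ u n * (d n * ‖deriv θ (pw R (s n) (d n) b)‖) := by
      have := mul_le_mul_of_nonneg_right c1 d0.le
      linarith
    have a2 := le_of_mul_le_mul_left a1 u0
    have a3 : Λ * μ ≤ (|Λ| + 1) * μ :=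
      mul_le_mul_of_nonneg_right (by linarith [le_abs_self Λ]) m0.le
    linarith
  · rw [pw_im]
    have a1 := mul_le_mul_of_nonneg_left X.top d0.le
    have a2 : ρ * (d n / μ) = d n * (ρ / μ) := by ring
    linarith
  · rw [pw_im]
    have a2 : ρ * (d n / μ) = d n * (ρ / μ) := by ring
    linarith
  · have c2 := k1 _ (mem σ hσ)
    rw [dist_eq_norm] at c2
    have hE : ‖exp (σ * I)‖ ≤ Real.exp ρ := by
      rw [norm_exp, Real.exp_le_exp]
      refine (re_le_norm _).trans ?_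
      rwa [norm_mul, norm_I, mul_one]
    have := near hη X.ne c2.le c0.le hE (X.wv σ hσ) δ1 δ2
    have un : (u n : ℂ) ≠ 0 := ofReal_ne_zero.2 u0.ne'
    rw [mul_assoc, mul_div_mul_left _ _ un] at this
    rwa [pw_add]
  · have c2 := k2 _ (mem σ hσ)
    rw [dist_comm, dist_zero_right, norm_mul, norm_pow, nu] at c2
    rw [pw_add]
    have a1 := mul_le_mul_of_nonneg_right (pow_le_pow_left₀ (by positivity) c1 2)
      (Real.exp_pos (-ρ)).le
    refine le_of_mul_le_mul_left ?_ (pow_pos u0 2)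
    rw [mul_pow] at a1
    linarith

end Vale.Agent.P097F.B
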