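import Vale.Agent.P097F.B.Defs
import Vale.Agent.P097S.Fin
import Vale.Agent.P097E.PolyA2

/-!
# P097F.B row 2903: the vertex map at a level
-/

set_option linter.all false

noncomputable section

namespace Vale.Agent.P097F.B

open Filter Topology Set Metric Complex Vale.Agent.P097N
open Vale.Agent.P097S (Dt Cn Kc Ch)
open Vale.Agent.P097E (wc Lv Low)
open Vale.Agent.P097S.FinL (cn_open cn_convex down ident)

namespace Lvx

variable {θ h : ℂ → ℂ} {Y Z Z' : ℂ × ℂ → ℂ} {r r' s s' κ a d d' ρ ρ' R : ℝ}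

theorem slice (C : Ch θ h Y r κ s a d ρ Z) {w : ℂ} (hw : w ∈ ball (0 : ℂ) ρ) :
    DifferentiableOn ℂ (fun x => Z (x, w)) (Cn r s a d (κ / 4)) :=
  C.dZ.comp (f := fun x : ℂ => (x, w)) (by fun_prop) fun x hx => ⟨hx, hw⟩

theorem agree (C : Ch θ h Y r κ s a d ρ Z) (C' : Ch θ h Y r' κ s' a d' ρ' Z') (a0 : 0 ≤ a)
    (κ0 : 0 < κ) {x w : ℂ} (hx : x ∈ Cn r s a d (κ / 4)) (hx' : x ∈ Cn r' s' a d' (κ / 4))
    (hw : w ∈ ball (0 : ℂ) ρ) (hw' : w ∈ ball (0 : ℂ) ρ') : Z (x, w) = Z' (x, w) := by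
  have t0 : 0 ≤ x.im - min x.im (3 * κ / 8) := sub_nonneg.2 (min_le_left _ _)
  have t1 : κ / 4 < x.im - (x.im - min x.im (3 * κ / 8)) := by
    rw [sub_sub_cancel]
    exact lt_min hx.1 (by linarith)
  refine ident (V := Cn r s a d (κ / 4) ∩ Cn r' s' a d' (κ / 4)) (W := {z : ℂ | z.im < κ / 2})
    ((cn_open _ _ _ _ _).inter (cn_open _ _ _ _ _))
    ((cn_convex _ _ _ _ _).inter (cn_convex _ _ _ _ _))
    ((slice C hw).mono inter_subset_left) ((slice C' hw').mono inter_subset_right)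
    (isOpen_lt continuous_im continuous_const) ⟨down a0 hx t0 t1, down a0 hx' t0 t1⟩ ?_
    (fun z hz k => by rw [C.eq z hz.1 k w hw, C'.eq z hz.2 k w hw']) ⟨hx, hx'⟩
  show (x - ((x.im - min x.im (3 * κ / 8) : ℝ) : ℂ) * I).im < κ / 2
  have := min_le_right x.im (3 * κ / 8)
  simp only [sub_im, mul_im, ofReal_re, I_im, mul_one, ofReal_im, I_re, mul_zero, add_zero]
  linarith

theorem ch_mem (C : Ch θ h Y r κ s a d ρ Z) (a1 : a ≤ 1) (κ0 : 0 < κ) (d0 : 0 ≤ d) (hr : r ≤ R)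
    {x w : ℂ} (hx : x ∈ Cn r s a d (κ / 4)) (hw : w ∈ ball (0 : ℂ) ρ) : Z (x, w) ∈ St R := by
  have b := C.bd x hx w hw
  have w1 := mem_ball_zero_iff.1 hw
  have ρ0 : 0 < ρ := (norm_nonneg w).trans_lt w1
  obtain ⟨x1, x2, x3⟩ := hx
  have p : 0 < a * (r - x.im) := (abs_nonneg _).trans_lt x3
  have μ0 : 0 ≤ min (a * (r - x.im)) κ / 16 := by
    have := le_min p.le κ0.le
    linarith
  have b2 : ‖Z (x, w) - x‖ ≤ min (a * (r - x.im)) κ / 16 :=
    le_of_mul_le_mul_right (b.trans (mul_le_mul_of_nonneg_left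
      (pow_le_pow_left₀ (norm_nonneg _) w1.le 2) μ0)) (pow_pos ρ0 2)
  have k1 := min_le_left (a * (r - x.im)) κ
  have k2 := min_le_right (a * (r - x.im)) κ
  have k3 : a * (r - x.im) ≤ 1 * (r - x.im) := mul_le_mul_of_nonneg_right a1 (by linarith)
  have k4 := abs_le.1 ((abs_im_le_norm _).trans b2)
  rw [sub_im] at k4
  show |(Z (x, w)).im| < R
  rw [abs_lt]
  constructor <;> linarith [k4.1, k4.2]

end Lvx

open Lvx

theorem lvx (hC : S_CBU) : S_LVX := by
  intro θ h Q Y c R κ D hκ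
  have κ0 := D.col.hη
  obtain ⟨a₁, c₁, a0, a1, c0, U⟩ := hC θ h Q Y c R κ D 1 one_pos le_rfl
  have e9 := Real.exp_pos 9
  refine ⟨4 * Real.exp 9 / c₁, 9 * Real.exp 9 ^ 2 / c₁ ^ 2, by positivity, fun R₀ ρ hρ =>
    ⟨Real.exp ρ + 2 + 1 / a₁, fun η G m y hΛ X => ?_⟩⟩
  have m0 := X.m0
  have G0 := X.G0
  have mc : (m : ℂ) ≠ 0 := ofReal_ne_zero.2 m0.ne'
  have Gc : (G : ℂ) ≠ 0 := ofReal_ne_zero.2 G0.ne'
  have eρ := Real.exp_pos ρ
  have ia : 0 < 1 / a₁ := by positivity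
  have L0 : 0 < 4 * Real.exp 9 / c₁ := by positivity
  have ρ14 : 14 ≤ ρ := by linarith [abs_nonneg R₀]
  set β : ℝ := arg (deriv θ y) with hβ
  have β4 : ‖(β : ℂ)‖ ≤ 4 := by
    rw [norm_real, Real.norm_eq_abs]
    exact (abs_arg_le_pi _).trans Real.pi_le_four
  let xx : ℂ → ℂ := fun V => y + m * (β + V)
  let rr : ℂ → ℝ := fun V => y.im + m * (V.im + 9)
  let ss : ℂ → ℝ := fun V => y.re + m * (β + V.re)
  let ra : ℂ → ℝ := fun V => c₁ * m / (2 * m * G * Real.exp (V.im + 9))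
  have xim : ∀ V, (xx V).im = y.im + m * V.im := fun V => by simp [xx]
  have xre : ∀ V, (xx V).re = ss V := fun V => by simp [xx, ss]
  have bnd : ∀ V : ℂ, ‖V‖ < R₀ → -ρ ≤ V.im ∧ V.im + 9 ≤ ρ := fun V hV => by
    have := abs_le.1 ((abs_im_le_norm V).trans (hV.le.trans (le_abs_self R₀)))
    constructor <;> linarith [this.1, this.2]
  have rR : ∀ V : ℂ, ‖V‖ < R₀ → rr V ≤ R := fun V hV => by
    have := mul_le_mul_of_nonneg_left (bnd V hV).2 m0.le
    show y.im + m * (V.im + 9) ≤ R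
    linarith [X.top]
  have xlo : ∀ V : ℂ, ‖V‖ < R₀ → 3 * R / 4 ≤ y.im + m * V.im := fun V hV => by
    have := mul_le_mul_of_nonneg_left (bnd V hV).1 m0.le
    linarith [X.hi]
  have main : ∀ V : ℂ, ‖V‖ < R₀ → ∃ Z, Ch θ h Y (rr V) κ (ss V) a₁ (8 * m) (ra V) Z := by
    intro V hV
    have hs : ‖(β : ℂ) + V + 9 * I‖ ≤ ρ := by
      have k1 := norm_add_le ((β : ℂ) + V) (9 * I)
      have k2 := norm_add_le (β : ℂ) V
      have k3 : ‖(9 : ℂ) * I‖ = 9 := by simp
      linarith [le_abs_self R₀]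
    have K := X.cone _ hs
    have i1 : (y + m * ((β : ℂ) + V + 9 * I)).im = rr V := by simp [rr]
    have i2 : (y + m * ((β : ℂ) + V + 9 * I)).re = ss V := by simp [ss]
    have i3 : ((β : ℂ) + V + 9 * I).im = V.im + 9 := by simp
    rw [i1, i2, i3] at K
    have l1 := xlo V hV
    have l2 : rr V = y.im + m * V.im + 9 * m := by simp only [rr]; ring
    refine U (rr V) (ss V) m _ (by linarith) (rR V hV) m0 (by linarith) ?_ K
    have k1 : Real.exp (-ρ) ≤ Real.exp (V.im + 9) :=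
      Real.exp_le_exp.2 (by linarith [(bnd V hV).1])
    have k2 : Real.exp ρ * Real.exp (-ρ) = 1 := by rw [← Real.exp_add]; simp
    have k3 : Real.exp ρ * Real.exp (-ρ) ≤ m * G * Real.exp (V.im + 9) :=
      mul_le_mul (by linarith) k1 (Real.exp_pos _).le (by positivity)
    nlinarith
  choose! Zc hZ using main
  have own : ∀ V : ℂ, ‖V‖ < R₀ → xx V ∈ Cn (rr V) (ss V) a₁ (8 * m) (κ / 4) := fun V hV => by
    have l1 := xlo V hV
    have l2 : rr V - (xx V).im = 9 * m := by rw [xim]; simp only [rr]; ring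
    refine ⟨by rw [xim]; linarith, by rw [l2]; linarith, ?_⟩
    rw [l2, xre, sub_self, abs_zero]
    positivity
  have nw : ∀ W : ℂ, ‖W / G‖ = ‖W‖ / G := fun W => by
    rw [norm_div, norm_real, Real.norm_of_nonneg G0.le]
  have rae : ∀ V : ℂ, ra V = c₁ / (2 * Real.exp 9 * Real.exp V.im) / G := fun V => by
    simp only [ra, Real.exp_add]
    field_simp
  have rad : ∀ V W : ℂ, V.im < -(4 * Real.exp 9 / c₁) → ‖W‖ < 2 →
      W / G ∈ ball (0 : ℂ) (ra V) := fun V W hV hW => by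
    rw [mem_ball_zero_iff, nw, rae]
    refine div_lt_div_of_pos_right (hW.trans_le ?_) G0
    rw [le_div_iff₀ (by positivity)]
    have k1 : 4 * Real.exp 9 / c₁ ≤ Real.exp (-V.im) := by
      linarith [Real.add_one_le_exp (-V.im)]
    rw [div_le_iff₀ c0] at k1
    have k2 : Real.exp (-V.im) * Real.exp V.im = 1 := by rw [← Real.exp_add]; simp
    have k3 := mul_le_mul_of_nonneg_right k1 (Real.exp_pos V.im).le
    nlinarith
  have back : ∀ u : ℂ, y + m * (β + ((u - y) / m - β)) = u := fun u => by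
    field_simp
    ring
  refine ⟨fun q => (Zc q.1 (xx q.1, q.2 / G) - y) / m - β, fun q hq => ?_, fun q hq => ?_,
    fun q hq => ?_, fun V W h1 h2 h3 => ?_⟩
  · have C := hZ q.1 hq.1
    have dφ : Differentiable ℂ fun p : ℂ × ℂ => (xx p.1, p.2 / G) := by
      simp only [xx, div_eq_mul_inv]
      fun_prop
    have o : Cn (rr q.1) (ss q.1) a₁ (8 * m) (κ / 4) ×ˢ ball (0 : ℂ) (ra q.1) ∈
        𝓝 (xx q.1, q.2 / G) :=
      ((cn_open _ _ _ _ _).prod isOpen_ball).mem_nhds ⟨own _ hq.1, rad _ _ hq.2.1 hq.2.2⟩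
    have d1 : DifferentiableAt ℂ (fun p : ℂ × ℂ => Zc q.1 (xx p.1, p.2 / G)) q :=
      (C.dZ.differentiableAt o).comp q (dφ q)
    have d2 : DifferentiableAt ℂ
        (fun p : ℂ × ℂ => (Zc q.1 (xx p.1, p.2 / G) - y) / m - β) q := by
      simp only [div_eq_mul_inv (_ - y)]
      exact ((d1.sub_const y).mul_const _).sub_const _
    refine d2.differentiableWithinAt.congr_of_eventuallyEq ?_ rfl
    filter_upwards [self_mem_nhdsWithin,
      mem_nhdsWithin_of_mem_nhds ((dφ q).continuousAt.preimage_mem_nhds o)] with p hp k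
    rw [agree (hZ p.1 hp.1) C a0.le κ0 (own _ hp.1) k.1 (rad _ _ hp.2.1 hp.2.2) k.2]
  · have := (hZ q.1 hq.1).ev _ (own _ hq.1) _ (rad _ _ hq.2.1 hq.2.2)
    simp only [neg_div]
    rw [this]
  · have b := (hZ q.1 hq.1).bd _ (own _ hq.1) _ (rad _ _ hq.2.1 hq.2.2)
    have l2 : rr q.1 - (xx q.1).im = 9 * m := by rw [xim]; simp only [rr]; ring
    have e : (Zc q.1 (xx q.1, q.2 / G) - y) / m - β - q.1 =
        (Zc q.1 (xx q.1, q.2 / G) - xx q.1) / m := by
      simp only [xx]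
      field_simp
      ring
    show ‖(Zc q.1 (xx q.1, q.2 / G) - y) / m - β - q.1‖ ≤ _
    rw [e, norm_div, norm_real, Real.norm_of_nonneg m0.le, div_le_iff₀ m0]
    rw [l2, nw, rae] at b
    generalize ‖Zc q.1 (xx q.1, q.2 / G) - xx q.1‖ = N at b ⊢
    have E0 := Real.exp_pos q.1.im
    have E1 : Real.exp q.1.im ≤ 1 := Real.exp_le_one_iff.2 (by linarith [hq.2.1])
    have k1 : min (a₁ * (9 * m)) κ / 16 ≤ 9 * m / 16 := by
      have := min_le_left (a₁ * (9 * m)) κ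
      nlinarith
    have k2 : (‖q.2‖ / G) ^ 2 ≤ (2 / G) ^ 2 :=
      pow_le_pow_left₀ (by positivity) (div_le_div_of_nonneg_right hq.2.2.le G0.le) 2
    have k3 := b.trans (mul_le_mul k1 k2 (by positivity) (by positivity))
    have p : 0 < (c₁ / (2 * Real.exp 9 * Real.exp q.1.im) / G) ^ 2 := by positivity
    refine le_of_mul_le_mul_right (k3.trans ?_) p
    have e2 : 9 * Real.exp 9 ^ 2 / c₁ ^ 2 * Real.exp q.1.im * m *
        (c₁ / (2 * Real.exp 9 * Real.exp q.1.im) / G) ^ 2 =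
        9 * m / 16 * (2 / G) ^ 2 / Real.exp q.1.im := by
      field_simp
      ring
    rw [e2, le_div_iff₀ E0]
    exact mul_le_of_le_one_right (by positivity) E1
  · have C := hZ V h2.1
    have hw := rad V W h2.2.1 h2.2.2
    have e1 : xx (V - ((m * G)⁻¹ : ℝ) * W) = xx V - W / G := by
      simp only [xx]
      push_cast
      field_simp
      ring
    have e2 : xx (V + ((m * G)⁻¹ : ℝ) * W) = xx V + W / G := by
      simp only [xx]
      push_cast
      field_simp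
      ring
    have w1 : ‖W / G‖ < 2 / G := by
      rw [nw]; exact div_lt_div_of_pos_right h2.2.2 G0
    have w2 : 2 / G ≤ m := by rw [div_le_iff₀ G0]; linarith
    have w3 : 2 / G ≤ a₁ * (8 * m) := by
      rw [div_le_iff₀ G0]
      have k : 1 / a₁ ≤ m * G := by linarith
      rw [div_le_iff₀ a0] at k
      linarith
    have wi := abs_lt.1 ((abs_im_le_norm (W / G)).trans_lt (w1.trans_le w2))
    have wr := (abs_re_le_norm (W / G)).trans_lt (w1.trans_le w3)
    have l2 : rr V - (xx V).im = 9 * m := by rw [xim]; simp only [rr]; ring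
    have o1 := own _ h1.1
    have o3 := own _ h3.1
    simp only [e1] at o1
    simp only [e2] at o3
    have c1 : xx V - W / G ∈ Cn (rr V) (ss V) a₁ (8 * m) (κ / 4) := by
      have k : 8 * m < rr V - (xx V - W / G).im := by rw [sub_im]; linarith [wi.1]
      refine ⟨o1.1, k, ?_⟩
      rw [sub_re, xre, sub_sub_cancel_left, abs_neg]
      exact wr.trans (mul_lt_mul_of_pos_left k a0)
    have c3 : xx V + W / G ∈ Cn (rr V) (ss V) a₁ (8 * m) (κ / 4) := by
      have k : 8 * m < rr V - (xx V + W / G).im := by rw [add_im]; linarith [wi.2]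
      refine ⟨o3.1, k, ?_⟩
      rw [add_re, xre, add_sub_cancel_left]
      exact wr.trans (mul_lt_mul_of_pos_left k a0)
    have g1 := agree (hZ _ h1.1) C a0.le κ0 o1 c1 (rad _ _ h1.2.1 h1.2.2) hw
    have g3 := agree (hZ _ h3.1) C a0.le κ0 o3 c3 (rad _ _ h3.2.1 h3.2.2) hw
    have mm : ∀ x ∈ Cn (rr V) (ss V) a₁ (8 * m) (κ / 4),
        (Zc V (x, W / G) - y) / m - β ∈ P097E.PW.xc (deriv θ) m y ⁻¹' St R := fun x hx => by
      show y + m * (β + ((Zc V (x, W / G) - y) / m - β)) ∈ St R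
      rw [back]
      exact ch_mem C (by linarith) κ0 (by positivity) (rR V h2.1) hx hw
    show EE _ _ ((Zc _ (xx _, W / G) - y) / m - β) ((Zc V (xx V, W / G) - y) / m - β)
      ((Zc _ (xx _, W / G) - y) / m - β) = 0
    rw [e1, e2, g1, g3, P097E.wc_ee2 m y D.cv.dθ D.cv.dh (mm _ c1) (mm _ (own V h2.1)) (mm _ c3),
      ← hβ, back, back, back, C.law _ _ hw c1 c3, mul_zero]

end Vale.Agent.P097F.B
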