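import Vale.Agent.P097F.B.Defs
import Vale.Agent.P097E.N1
import Vale.Agent.P097E.GlueB
import Vale.Agent.P097E.PolyW2

/-! # P097F.B: there is no high exponential level -/

set_option linter.all false

noncomputable section

namespace Vale.Agent.P097F.B

open Filter Topology Set Metric Complex Vale.Agent.P097N Vale.Agent.P097E Vale.Agent.P097E.PW
open Vale.Agent.P097Top (Cur)

variable {θ Q : ℂ → ℂ} {R ρ η G m : ℝ} {y X : ℂ}

theorem nx_mem (l : XL θ Q R ρ η G m y) (R0 : 0 < R) (f : ℂ → ℂ) (hX : ‖X‖ < ρ) :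
    X ∈ xc f m y ⁻¹' St R := by
  have u1 := mul_lt_mul_of_pos_left ((abs_im_le_norm X).trans_lt hX) l.m0
  rw [← abs_of_pos l.m0, ← abs_mul, abs_of_pos l.m0, abs_lt] at u1
  show |(xc f m y X).im| < R
  rw [show (xc f m y X).im = y.im + m * X.im by simp [xc], abs_lt]
  constructor <;> linarith [l.top, l.hi, u1.1, u1.2]

theorem nx_arg (a X : ℂ) : ‖(arg a : ℂ) + X‖ ≤ ‖X‖ + 4 := by
  have h1 := norm_add_le ((arg a : ℝ) : ℂ) X
  rw [norm_real, Real.norm_eq_abs] at h1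
  linarith [abs_arg_le_pi a, Real.pi_le_four]

theorem nx_wv (l : XL θ Q R ρ η G m y) (R0 : 0 < R) (dθ : DifferentiableOn ℂ θ (St R))
    (hX : ‖X‖ + 4 ≤ ρ) :
    ‖(((m * G)⁻¹ : ℝ) : ℂ) * deriv (wc (deriv θ) m y θ) X * exp (X * I) - 1‖ ≤ η := by
  have k := l.wv (arg (deriv θ y) + X) ((nx_arg _ _).trans hX)
  refine le_of_eq_of_le ?_ k
  have e := norm_mul_exp_arg_mul_I (deriv θ y)
  rw [l.val] at e
  have m0 : (m : ℂ) ≠ 0 := ofReal_ne_zero.2 l.m0.ne'
  have e0 : (G : ℂ) ≠ 0 := ofReal_ne_zero.2 l.G0.ne'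
  rw [d1 dθ X (nx_mem l R0 _ (by linarith)), add_mul, Complex.exp_add]
  simp only [wc]
  generalize deriv θ (y + m * (arg (deriv θ y) + X)) = u
  have e1 := Complex.exp_ne_zero (arg (deriv θ y) * I)
  generalize exp (arg (deriv θ y) * I) = v at e e1
  rw [← e, ofReal_inv, ofReal_mul]
  congr 2
  field_simp

theorem nx_q (l : XL θ Q R ρ η G m y) (hX : ‖X‖ + 4 ≤ ρ) :
    ‖(m : ℂ) ^ 2 * wc (deriv θ) m y Q X‖ ≤ Real.exp X.im / (m * G)⁻¹ ^ 2 := by
  have m0 := l.m0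
  have k := l.q (arg (deriv θ y) + X) ((nx_arg _ _).trans hX)
  have k1 : Real.exp (-ρ) ≤ Real.exp X.im :=
    Real.exp_le_exp.2 (by linarith [(abs_le.1 (abs_im_le_norm X)).1])
  rw [norm_mul, norm_pow, norm_real, Real.norm_eq_abs, abs_of_pos m0, inv_pow,
    div_inv_eq_mul, mul_pow, mul_left_comm]
  refine mul_le_mul_of_nonneg_left (k.trans ?_) (by positivity)
  rw [mul_comm]
  gcongr

theorem nox (h : S_LVX) : S_NOX := by
  intro R c κ θ H Q Y C D hκ
  obtain ⟨L₁, M₁, m1, h1⟩ := h θ H Q Y c R κ D hκ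
  obtain ⟨L, M, h3⟩ := gb (max L₁ 3600) (max M₁ 3600) (le_max_of_le_left m1)
  obtain ⟨R₀, ε₀, η₀, e0, k0, w⟩ := win L M
  have a0 := abs_nonneg R₀
  have a1 := le_abs_self R₀
  obtain ⟨Λ, h1⟩ := h1 (R₀ + 3) (|R₀| + 30) (by
    have := abs_add_le R₀ 3
    rw [abs_of_pos (show (0 : ℝ) < 3 by norm_num)] at this
    linarith)
  refine ⟨|R₀| + 30, min η₀ (1 / 8), max Λ (max 100 ε₀⁻¹), by linarith, by positivity,
    fun G m y b l => ?_⟩
  have b1 := le_of_max_le_left (le_of_max_le_right b)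
  obtain ⟨Z, hZ⟩ := h1 _ G m y (le_of_max_le_left b) l
  have e : 0 < (m * G)⁻¹ := by have := l.m0; have := l.G0; positivity
  have e1 : (m * G)⁻¹ ≤ 1 / 100 := by rw [one_div]; exact inv_anti₀ (by norm_num) b1
  have V := cv (f := deriv θ) (y := y) C l.m0 (isOpen_ball (x := 0) (ε := R₀ + 3 + 3))
    fun X hX => nx_mem l C.rpos _ (by linarith [mem_ball_zero_iff.1 hX])
  have s := ball_subset_ball (x := (0 : ℂ)) (show R₀ + 3 ≤ R₀ + 3 + 3 by linarith)
  have W : Cs.Wn (wc (deriv θ) m y θ) (wc (deriv θ) m y H) (m ^ 3 * c) (m * G)⁻¹ (R₀ + 3)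
      (min η₀ (1 / 8)) :=
    ⟨V.dθ.mono s, V.dh.mono s, V.c0, fun X hX => V.ode X (s hX), fun X hX =>
      nx_wv l C.rpos C.dθ (by linarith [mem_ball_zero_iff.1 hX])⟩
  have v := pv V e (by linarith) (fun z hz => by
    have k := (nx_wv l C.rpos C.dθ (X := z) (by linarith)).trans
      ((min_le_right _ _).trans (show (1 : ℝ) / 8 ≤ 1 by norm_num))
    generalize (m * G)⁻¹ = ε at k e
    have k1 := norm_sub_norm_le ((ε : ℂ) * deriv (wc (deriv θ) m y θ) z * exp (z * I)) 1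
    rw [norm_mul, norm_mul, norm_real, Real.norm_eq_abs, abs_of_pos e, Complex.norm_exp,
      norm_one, show (z * I).re = -z.im by simp, Real.exp_neg] at k1
    rw [le_div_iff₀ e, ← div_le_iff₀ (Real.exp_pos _), div_eq_mul_inv]
    linarith) fun z h1 _ => nx_q l (by linarith)
  obtain ⟨Z', hZ'⟩ := h3 _ _ _ _ R₀ Z (Wn_mono W le_rfl (min_le_right _ _)) e e1
    (hZ.mono (le_max_left _ _) (le_max_left _ _)) (v.mono (le_max_right _ _) (le_max_right _ _))
  exact w _ _ _ _ Z' (Wn_mono W (by linarith) (min_le_left _ _)) e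
    (inv_le_of_inv_le₀ e0 (le_of_max_le_right (le_of_max_le_right b))) hZ'

end Vale.Agent.P097F.B
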