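import Vale.Agent.P097F.B.Defs

/-!
# P097F.B: the potential is negligible in the windows (row QZ)
-/

set_option linter.all false

namespace Vale.Agent.P097F.B

open Filter Topology Set Metric Complex
open Vale.Agent.P097Top (Cur)

namespace QzL

theorem dcomp (φ : ℂ → ℂ) (a d u : ℂ) :
    deriv (fun X => u * φ (a + d * X)) = fun X => u * d * deriv φ (a + d * X) := by
  funext X
  rw [deriv_const_mul_field, deriv_comp_mul_left (f := fun y => φ (a + y)), deriv_comp_const_add,
    smul_eq_mul, mul_assoc]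

/-- the quotient `f'' / f` is bounded inside a circle on which `f` is bounded below -/
theorem quo {f q : ℂ → ℂ} {X : ℂ} {r B δ : ℝ} (r0 : 0 < r) (δ0 : 0 < δ)
    (hf : DifferentiableOn ℂ f (ball X (3 * r))) (hq : DifferentiableOn ℂ q (ball X (3 * r)))
    (ode : ∀ z ∈ ball X (3 * r), deriv (deriv f) z = q z * f z)
    (hB : ∀ z ∈ closedBall X (2 * r), ‖f z‖ ≤ B) (hδ : ∀ z ∈ sphere X r, δ ≤ ‖f z‖) :
    ∀ z ∈ ball X r, ‖q z‖ ≤ 2 * B / r ^ 2 / δ := fun z hz => by
  have s1 : closedBall X r ⊆ ball X (3 * r) := closedBall_subset_ball (by linarith)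
  refine Complex.norm_le_of_forall_mem_frontier_norm_le isBounded_ball
    (hq.diffContOnCl_ball s1) (fun w hw => ?_) (subset_closure hz)
  rw [frontier_ball X r0.ne'] at hw
  have s2 : closedBall w r ⊆ closedBall X (2 * r) :=
    closedBall_subset_closedBall' (by rw [mem_sphere.1 hw]; linarith)
  have h := Complex.norm_iteratedDeriv_le_of_forall_mem_sphere_norm_le 2 r0
    (hf.diffContOnCl_ball (s2.trans (closedBall_subset_ball (by linarith))))
    fun v hv => hB v (s2 (sphere_subset_closedBall hv))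
  rw [iteratedDeriv_succ, iteratedDeriv_one, ode w (s1 (sphere_subset_closedBall hw)),
    norm_mul] at h
  rw [le_div_iff₀ δ0]
  refine (mul_le_mul_of_nonneg_left (hδ w hw) (norm_nonneg _)).trans (h.trans_eq ?_)
  simp [Nat.factorial]

end QzL

open QzL in
theorem qz : S_QZ := by
  intro R c θ H Q g l s d u hC W ⟨y₀, hy₀, g0⟩
  have op : IsOpen {X : ℂ | X.im < 0} := isOpen_lt Complex.continuous_im continuous_const
  have oS : IsOpen (P097T.Strip R) := isOpen_lt Complex.continuous_im.abs continuous_const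
  have an := W.dg.analyticOnNhd op
  refine Metric.tendstoLocallyUniformlyOn_iff.2 fun ε ε0 X hX => ?_
  have X0 : X.im < 0 := hX
  have ne : ∀ᶠ z in 𝓝[≠] X, g z ≠ 0 := (an X hX).eventually_eq_zero_or_eventually_ne_zero.resolve_left
    fun e => g0 (an.eqOn_zero_of_preconnected_of_eventuallyEq_zero
      (convex_halfSpace_im_lt 0).isPreconnected hX e hy₀)
  obtain ⟨r₁, r1, h1⟩ := Metric.eventually_nhds_iff.1 (eventually_nhdsWithin_iff.1 ne)
  obtain ⟨r, r0, r2, r3⟩ : ∃ r : ℝ, 0 < r ∧ r < r₁ ∧ 3 * r ≤ -X.im :=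
    ⟨min (r₁ / 2) (-X.im / 3), lt_min (half_pos r1) (by linarith),
      (min_le_left _ _).trans_lt (half_lt_self r1), by linarith [min_le_right (r₁ / 2) (-X.im / 3)]⟩
  have im : ∀ z ∈ ball X (3 * r), z.im < 0 ∧ 2 * X.im < z.im := fun z hz => by
    have := abs_lt.1 ((Complex.abs_im_le_norm (z - X)).trans_lt (mem_ball_iff_norm.1 hz))
    rw [Complex.sub_im] at this
    constructor <;> linarith
  have s1 : closedBall X (2 * r) ⊆ {X : ℂ | X.im < 0} := fun z hz =>
    (im z (closedBall_subset_ball (by linarith) hz)).1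
  have s2 : sphere X r ⊆ closedBall X (2 * r) :=
    sphere_subset_closedBall.trans (closedBall_subset_closedBall (by linarith))
  have cg := (W.dg.continuousOn.mono s1).norm
  obtain ⟨B, hB⟩ := (isCompact_closedBall X (2 * r)).exists_bound_of_continuousOn
    (W.dg.continuousOn.mono s1)
  obtain ⟨δ, δ0, hδ⟩ := (isCompact_sphere X r).exists_forall_le' (cg.mono s2) (a := 0)
    fun z hz => norm_pos_iff.2 (h1 ((mem_sphere.1 hz).trans_lt r2) fun e => by
      rw [mem_singleton_iff.1 e, mem_sphere, dist_self] at hz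
      exact r0.ne hz)
  have un := Metric.tendstoUniformlyOn_iff.1 ((tendstoLocallyUniformlyOn_iff_forall_isCompact op).1
    W.cg _ s1 (isCompact_closedBall X (2 * r))) (δ / 2) (half_pos δ0)
  have t1 : Tendsto (fun n => (u n / d n) ^ 2 * (2 * (B + δ / 2) / r ^ 2 / (δ / 2))) l (𝓝 0) := by
    simpa using (W.ul.pow 2).mul_const (2 * (B + δ / 2) / r ^ 2 / (δ / 2))
  have t2 : Tendsto (fun n => d n * -X.im) l (𝓝 0) := by simpa using W.dl.mul_const (-X.im)
  refine ⟨ball X r, mem_nhdsWithin_of_mem_nhds (ball_mem_nhds X r0), ?_⟩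
  filter_upwards [un, t1.eventually (gt_mem_nhds ε0), t2.eventually (gt_mem_nhds hC.rpos)]
    with n e1 e2 e3 z hz
  have d0 := W.d0 n
  have mp : MapsTo (pw R (s n) (d n)) (ball X (3 * r)) (P097T.Strip R) := fun z hz => by
    have := im z hz
    simp only [P097T.Strip, pw, mem_setOf_eq, abs_lt, add_im, ofReal_im, mul_im, ofReal_re, I_im,
      I_re]
    constructor <;> nlinarith
  have dp : DifferentiableOn ℂ (pw R (s n) (d n)) (ball X (3 * r)) := by unfold pw; fun_prop
  have k := quo (f := fun X => u n * deriv θ (pw R (s n) (d n) X))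
    (q := fun X => (d n : ℂ) ^ 2 * Q (pw R (s n) (d n) X)) (B := B + δ / 2) r0 (half_pos δ0)
    (((hC.dθ.deriv oS).comp dp mp).const_mul _) ((hC.dQ.comp dp mp).const_mul _) (fun z hz => by
      have := hC.ode _ (mp hz)
      simp only [pw] at this ⊢
      simp only [dcomp, this]
      ring) (fun z hz => by
      have := norm_sub_norm_le (u n * deriv θ (pw R (s n) (d n) z)) (g z)
      linarith [hB z hz, (dist_comm _ _).trans_lt (e1 z hz), dist_eq_norm
        (u n * deriv θ (pw R (s n) (d n) z)) (g z)]) (fun z hz => by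
      have := norm_sub_norm_le (g z) (u n * deriv θ (pw R (s n) (d n) z))
      linarith [hδ z hz, e1 z (s2 hz), dist_eq_norm (g z)
        (u n * deriv θ (pw R (s n) (d n) z))]) z hz
  rw [dist_comm, dist_zero_right]
  refine lt_of_le_of_lt ?_ e2
  have e : (u n : ℂ) ^ 2 * Q (pw R (s n) (d n) z) =
      ((u n / d n) ^ 2 : ℝ) * ((d n : ℂ) ^ 2 * Q (pw R (s n) (d n) z)) := by
    have : (d n : ℂ) ≠ 0 := Complex.ofReal_ne_zero.2 d0.ne'
    push_cast
    field_simp
  rw [e, norm_mul, Complex.norm_real, Real.norm_of_nonneg (sq_nonneg _)]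
  exact mul_le_mul_of_nonneg_left k (sq_nonneg _)

end Vale.Agent.P097F.B
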