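import Vale.Agent.P097D.Defs

/-!
# P097F.B: a decaying function is touched from above by an exponential at a deep point
-/

set_option linter.all false

noncomputable section

namespace Vale.Agent.P097F.B

open Set Metric Filter Topology Complex Vale.Agent.P097D

/-- the chart of the half plane below the depth `τ` -/
def yy (τ : ℝ) (z : ℂ) : ℂ := -(τ * I) - z * I

theorem yy_im (τ : ℝ) (z : ℂ) : (yy τ z).im = -τ - z.re := by simp [yy]

theorem yy_inv (τ : ℝ) (y : ℂ) : yy τ ((y + τ * I) * I) = y := by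
  simp only [yy]
  linear_combination (-(y + τ * I)) * I_mul_I

theorem nI {y : ℂ} (h : y.im ≤ 0) : 1 ≤ ‖y - I‖ ∧ 1 + ‖y‖ ≤ 2 * ‖y - I‖ := by
  have e : 1 + ‖y‖ ^ 2 ≤ ‖y - I‖ ^ 2 := by
    rw [Complex.sq_norm, Complex.sq_norm, normSq_apply, normSq_apply]
    simp only [sub_re, I_re, sub_im, I_im]
    nlinarith
  have h1 : 1 ≤ ‖y - I‖ := by
    refine le_of_sq_le_sq ?_ (norm_nonneg _) |>.trans le_rfl
    nlinarith [sq_nonneg ‖y‖]
  have h2 : ‖y‖ ≤ ‖y - I‖ := by
    refine le_of_sq_le_sq ?_ (norm_nonneg _) |>.trans le_rfl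
    nlinarith
  exact ⟨h1, by linarith⟩

/-- Phragmen-Lindelof: an exponential rate on the axis holds everywhere -/
theorem rate {f : ℂ → ℂ} {M lam B : ℝ} (d : DifferentiableOn ℂ f {z | 0 ≤ z.re})
    (b : ∀ z : ℂ, 0 ≤ z.re → ‖f z‖ ≤ M)
    (h : ∀ x : ℝ, 0 ≤ x → ‖f x‖ * Real.exp (lam * x) ≤ B) {z : ℂ} (hz : 0 ≤ z.re) :
    ‖f z‖ * Real.exp (lam * z.re) ≤ M := by
  have n : ∀ z : ℂ, ‖f z * exp (lam * z)‖ = ‖f z‖ * Real.exp (lam * z.re) := fun z => by
    rw [norm_mul, Complex.norm_exp, re_ofReal_mul]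
  rw [← n]
  refine PhragmenLindelof.right_half_plane_of_bounded_on_real
    (f := fun z => f z * exp (lam * z)) ?_ ⟨1, one_lt_two, |lam|, ?_⟩ ⟨B, ?_⟩ (fun x => ?_) hz
  · refine DifferentiableOn.diffContOnCl ?_
    rw [closure_setOf_lt_re]
    exact d.mul (by fun_prop)
  · refine Asymptotics.IsBigO.of_bound M (eventually_inf_principal.2 (.of_forall fun z hz => ?_))
    have h0 : 0 < z.re := hz
    rw [n, Real.rpow_one, Real.norm_eq_abs, abs_of_pos (Real.exp_pos _)]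
    refine mul_le_mul (b z h0.le) (Real.exp_le_exp.2 ?_) (Real.exp_pos _).le
      ((norm_nonneg _).trans (b z h0.le))
    exact (le_abs_self _).trans (by rw [abs_mul]; gcongr; exact abs_re_le_norm z)
  · rw [eventually_map]
    filter_upwards [eventually_ge_atTop 0] with x hx
    rw [n]
    exact h x hx
  · rw [n]
    simpa using b (x * I) (by simp)

theorem touch {g : ℂ → ℂ} {τ : ℝ} (d : DifferentiableOn ℂ g (Lo 0)) (τ0 : 0 < τ)
    (ne : ∃ y ∈ Lo 0, g y ≠ 0) (D : Decay g τ) : ∃ ν : ℝ, 0 < ν ∧ ∀ δ : ℝ, 0 < δ → ∀ T : ℝ,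
    ∃ yb : ℂ, yb.im < -T ∧ g yb ≠ 0 ∧ ∀ y : ℂ, y.im ≤ -τ →
      ‖g y‖ ≤ ‖g yb‖ * Real.exp ((ν + δ) * (y.im - yb.im) + 4 * δ * ‖y - yb‖) := by
  obtain ⟨c, C, c0, hC⟩ := D
  have op : IsOpen (Lo 0) := isOpen_lt continuous_im continuous_const
  set f : ℂ → ℂ := fun z => g (yy τ z) ^ 8 / (yy τ z - I) with hf
  have lo : ∀ z : ℂ, 0 ≤ z.re → (yy τ z).im ≤ -τ := fun z hz => by rw [yy_im]; linarith
  have n0 : ∀ z : ℂ, 0 ≤ z.re → 0 < ‖yy τ z - I‖ := fun z hz =>
    one_pos.trans_le (nI ((lo z hz).trans (by linarith))).1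
  have df : DifferentiableOn ℂ f {z | 0 ≤ z.re} := by
    have dy : Differentiable ℂ (yy τ) := by unfold yy; fun_prop
    refine ((d.comp dy.differentiableOn fun z hz => ?_).pow 8).div
      (dy.sub_const I).differentiableOn fun z hz => norm_pos_iff.1 (n0 z hz)
    exact lt_of_le_of_lt (lo z hz) (by linarith)
  have nf : ∀ z : ℂ, 0 ≤ z.re → ‖f z‖ * ‖yy τ z - I‖ = ‖g (yy τ z)‖ ^ 8 := fun z hz => by
    simp only [hf, norm_div, norm_pow]
    exact div_mul_cancel₀ _ (n0 z hz).ne'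
  set M := 2 * |C| with hM
  have b1 : ∀ z : ℂ, 0 ≤ z.re → ‖f z‖ * Real.exp (c * z.re) ≤ M := fun z hz => by
    have h1 := hC _ (lo z hz)
    have h2 := (nI ((lo z hz).trans (by linarith))).2
    have h3 : Real.exp (c * (yy τ z).im) * Real.exp (c * z.re) ≤ 1 := by
      rw [← Real.exp_add, Real.exp_le_one_iff, yy_im]
      nlinarith
    refine le_of_mul_le_mul_right ?_ (n0 z hz)
    rw [mul_right_comm, nf z hz]
    calc _ ≤ |C| * (2 * ‖yy τ z - I‖) * Real.exp (c * (yy τ z).im) * Real.exp (c * z.re) := by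
          gcongr
          refine h1.trans ?_
          gcongr
          exact le_abs_self C
      _ = M * ‖yy τ z - I‖ * (Real.exp (c * (yy τ z).im) * Real.exp (c * z.re)) := by
          rw [hM]; ring
      _ ≤ _ := mul_le_of_le_one_right (by positivity) h3
  have b0 : ∀ z : ℂ, 0 ≤ z.re → ‖f z‖ ≤ M := fun z hz =>
    (le_mul_of_one_le_right (norm_nonneg _) (Real.one_le_exp (by positivity))).trans (b1 z hz)
  set S : Set ℝ := {lam | ∃ B, ∀ x : ℝ, 0 ≤ x → ‖f x‖ * Real.exp (lam * x) ≤ B} with hS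
  have cS : c ∈ S := ⟨M, fun x hx => b1 x hx⟩
  obtain ⟨y₁, y1, g1⟩ : ∃ y : ℂ, y.im < -τ ∧ g y ≠ 0 := by
    by_contra k
    push Not at k
    obtain ⟨y, hy, gy⟩ := ne
    refine gy ((d.analyticOnNhd op).eqOn_zero_of_preconnected_of_eventuallyEq_zero
      (convex_halfSpace_im_lt 0).isPreconnected (z₀ := ⟨0, -τ - 1⟩)
      (show -τ - 1 < 0 by linarith) ?_ hy)
    filter_upwards [(isOpen_lt continuous_im continuous_const).mem_nhds
      (show (⟨0, -τ - 1⟩ : ℂ).im < -τ by show -τ - 1 < -τ; linarith)] with y hy using k y hy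
  have bS : BddAbove S := by
    set z₁ := (y₁ + τ * I) * I with hz
    have z0 : 0 < z₁.re := by simp [hz]; linarith
    have f0 : 0 < ‖f z₁‖ := by
      have := nf z₁ z0.le
      rw [hz, yy_inv] at this
      refine lt_of_le_of_ne (norm_nonneg _) fun e => ?_
      rw [← hz, ← e, zero_mul] at this
      exact pow_ne_zero 8 (norm_ne_zero_iff.2 g1) this.symm
    refine ⟨M / ‖f z₁‖ / z₁.re, fun lam ⟨B, hB⟩ => ?_⟩
    have := rate df b0 hB z0.le
    rw [le_div_iff₀ z0, le_div_iff₀' f0]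
    nlinarith [Real.add_one_le_exp (lam * z₁.re)]
  have s0 : 0 < sSup S := c0.trans_le (le_csSup bS cS)
  refine ⟨sSup S / 8, by positivity, fun δ δ0 T => ?_⟩
  set ν := sSup S / 8 with hν
  have ν0 : 0 < ν := by positivity
  obtain ⟨lam, ⟨B, hB⟩, l1⟩ := exists_lt_of_lt_csSup ⟨c, cS⟩ (show 8 * ν - 4 * δ < sSup S by
    rw [hν]; linarith)
  set K := M * (1 + 1 / (4 * δ)) * Real.exp (|lam| * τ) + 1 with hK
  have K1 : 1 ≤ K := le_add_of_nonneg_left (by positivity)
  have up : ∀ y : ℂ, y.im ≤ -τ → ‖g y‖ ≤ K * Real.exp (δ / 2 * ‖y‖ + (ν - δ / 2) * y.im) := by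
    intro y hy
    set z := (y + τ * I) * I with hz
    have zr : z.re = -y.im - τ := by simp [hz]; ring
    have z0 : 0 ≤ z.re := by linarith
    have h1 := rate df b0 hB z0
    have h2 := nf z z0
    rw [hz, yy_inv, ← hz] at h2
    have h3 : ‖y - I‖ ≤ (1 + 1 / (4 * δ)) * Real.exp (4 * δ * ‖y‖) := by
      have := norm_sub_le y I
      rw [norm_I] at this
      have k : (1 + 1 / (4 * δ)) * (4 * δ * ‖y‖ + 1) = 4 * δ * ‖y‖ + 1 + ‖y‖ + 1 / (4 * δ) := by
        field_simp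
        ring
      have k1 : 0 ≤ 4 * δ * ‖y‖ + 1 / (4 * δ) := by positivity
      calc _ ≤ (1 + 1 / (4 * δ)) * (4 * δ * ‖y‖ + 1) := by rw [k]; linarith
        _ ≤ _ := by gcongr; exact Real.add_one_le_exp _
    have h4 : ‖f z‖ ≤ M * (Real.exp (|lam| * τ) * Real.exp ((8 * ν - 4 * δ) * y.im)) := by
      rw [← le_div_iff₀ (Real.exp_pos _), div_eq_mul_inv, ← Real.exp_neg] at h1
      refine h1.trans ?_
      rw [← Real.exp_add]
      gcongr
      rw [zr]
      nlinarith [le_abs_self lam]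
    refine le_of_pow_le_pow_left₀ (n := 8) (by norm_num) (by positivity) ?_
    rw [← h2, mul_pow, ← Real.exp_nat_mul]
    calc _ ≤ M * (Real.exp (|lam| * τ) * Real.exp ((8 * ν - 4 * δ) * y.im)) *
          ((1 + 1 / (4 * δ)) * Real.exp (4 * δ * ‖y‖)) := by gcongr
      _ = M * (1 + 1 / (4 * δ)) * Real.exp (|lam| * τ) *
          (Real.exp (4 * δ * ‖y‖) * Real.exp ((8 * ν - 4 * δ) * y.im)) := by ring
      _ ≤ K ^ 8 * (Real.exp (4 * δ * ‖y‖) * Real.exp ((8 * ν - 4 * δ) * y.im)) := by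
          gcongr
          exact (by linarith : _ ≤ K).trans (le_self_pow₀ K1 (by norm_num))
      _ = _ := by
          rw [← Real.exp_add]
          congr 2
          push_cast
          ring
  obtain ⟨x, x0, hx⟩ : ∃ x : ℝ, 0 ≤ x ∧
      (K * Real.exp (2 * δ * |T|)) ^ 8 < ‖f x‖ * Real.exp (8 * (ν + δ) * x) := by
    by_contra k
    push Not at k
    have := le_csSup bS (show 8 * (ν + δ) ∈ S from ⟨_, k⟩)
    rw [hν] at this
    linarith
  set y₀ := yy τ x with hy
  have i0 : y₀.im = -τ - x := yy_im τ x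
  have r0 : ‖y₀‖ = τ + x := by
    have : y₀ = ((-(τ + x) : ℝ) : ℂ) * I := by simp only [hy, yy]; push_cast; ring
    rw [this, norm_mul, norm_I, mul_one, norm_real, Real.norm_eq_abs, abs_neg, abs_of_pos]
    linarith
  set Φ : ℂ → ℝ := fun y => ‖g y‖ * Real.exp (-((ν + δ) * y.im) - 4 * δ * ‖y - y₀‖) with hΦ
  have big : K * Real.exp (2 * δ * |T|) < Φ y₀ := by
    refine lt_of_pow_lt_pow_left₀ 8 (by positivity) (hx.trans_le ?_)
    simp only [hΦ, sub_self, norm_zero, mul_zero, sub_zero]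
    rw [mul_pow, ← nf x x0, ← Real.exp_nat_mul]
    refine mul_le_mul (le_mul_of_one_le_right (norm_nonneg _)
      (nI ((lo x x0).trans (by linarith))).1) (Real.exp_le_exp.2 ?_) (by positivity) (by positivity)
    rw [i0]
    push_cast
    nlinarith
  have up' : ∀ y : ℂ, y.im ≤ -τ →
      Φ y ≤ K * Real.exp (δ / 2 * ‖y‖ - 3 * δ / 2 * y.im - 4 * δ * ‖y - y₀‖) := fun y hy => by
    refine (mul_le_mul_of_nonneg_right (up y hy) (Real.exp_pos _).le).trans_eq ?_
    rw [mul_assoc, ← Real.exp_add]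
    congr 2
    ring
  have sb : {y : ℂ | y.im ≤ -τ} ⊆ Lo 0 := fun y hy =>
    lt_of_le_of_lt (show y.im ≤ -τ from hy) (by linarith)
  have cΦ : ContinuousOn Φ {y : ℂ | y.im ≤ -τ} := (d.continuousOn.mono sb).norm.mul
    (Continuous.continuousOn (by fun_prop))
  obtain ⟨yb, hb, mx⟩ := ContinuousOn.exists_isMaxOn' (s := {y : ℂ | y.im ≤ -τ}) cΦ
    (isClosed_le continuous_im continuous_const) (x₀ := y₀) (lo x x0) (by
      refine eventually_inf_principal.2 ?_
      filter_upwards [(tendsto_norm_cocompact_atTop (E := ℂ)).eventually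
        (eventually_ge_atTop (2 * (τ + x)))] with y h1 h2
      refine ((up' y h2).trans ?_).trans big.le
      gcongr
      have k1 := norm_sub_norm_le y y₀
      have k2 := (abs_le.1 (abs_im_le_norm y)).1
      rw [r0] at k1
      nlinarith [abs_nonneg T])
  have m0 : Φ y₀ ≤ Φ yb := mx (lo x x0)
  refine ⟨yb, ?_, fun e => ?_, fun y hy => ?_⟩
  · by_contra k
    push Not at k
    refine absurd (big.trans_le (m0.trans (up' yb hb))) (not_lt.2 ?_)
    gcongr
    have k1 := norm_sub_norm_le yb y₀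
    have k2 := (abs_le.1 (abs_im_le_norm (yb - y₀))).2
    rw [r0] at k1
    rw [sub_im, i0] at k2
    nlinarith [le_abs_self T, norm_nonneg (yb - y₀)]
  · have : Φ yb = 0 := by simp [hΦ, e]
    have k : 0 < K * Real.exp (2 * δ * |T|) := by positivity
    linarith
  · have h1 : Φ y ≤ Φ yb := mx hy
    simp only [hΦ] at h1
    rw [← le_div_iff₀ (Real.exp_pos _), mul_div_assoc, ← Real.exp_sub] at h1
    refine h1.trans ?_
    gcongr
    have := norm_sub_norm_le (y - y₀) (yb - y₀)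
    rw [sub_sub_sub_cancel_right] at this
    nlinarith

end Vale.Agent.P097F.B
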