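import Vale.Agent.P097F.B.Defs
import Vale.Agent.P097F.B.Touch

/-!
# P097F.B: touching, in the form of the row
-/

namespace Vale.Agent.P097F.B

theorem tch0 : S_TCH := by
  intro g τ d ne τ0 D
  obtain ⟨ν, ν0, h⟩ := touch d τ0 ne D
  refine ⟨ν, ν0, fun e T e0 => ?_⟩
  obtain ⟨b, b1, b2, b3⟩ := h (e / 4) (by positivity) T
  refine ⟨ν + e / 4, b, by linarith, b1.le, b2, fun y hy => ?_⟩
  have := b3 y hy
  rwa [show 4 * (e / 4) = e by ring] at this

end Vale.Agent.P097F.B
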