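import Vale.Agent.P097F.B.Defs
import Vale.Agent.P097M.Har

/-! # P097F.B: exponential levels of the limit -/

set_option linter.all false

noncomputable section

namespace Vale.Agent.P097F.B

open Filter Topology Set Metric Complex

theorem xm (hT : S_TCH) : S_XM := by
  intro g τ hg hne hτ hD ρ η hρ hη
  obtain ⟨μ₀, hμ₀, H⟩ := hT g τ hg hne hτ hD
  have hρ0 : 0 < ρ := by linarith
  obtain ⟨η', hη0, hη1, hη2⟩ : ∃ η' : ℝ, 0 < η' ∧ η' ≤ 1 ∧ η' ≤ η :=
    ⟨min 1 η, lt_min one_pos hη, min_le_left _ _, min_le_right _ _⟩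
  obtain ⟨e', he0, he1⟩ : ∃ e' : ℝ, 0 < e' ∧ e' * ρ = η' / 30 :=
    ⟨η' / (30 * ρ), by positivity, by field_simp⟩
  have he2 : e' ≤ 1 / 30 := by nlinarith
  obtain ⟨μ, b, hμ, hb, hgb, hB⟩ := H (μ₀ * e') (τ + 1 + 3 * ρ / μ₀) (by positivity)
  have hμ0 : 0 < μ := hμ₀.trans_le hμ
  have hq : 3 * ρ / μ ≤ 3 * ρ / μ₀ := by gcongr
  have him : ∀ s : ℂ, (b + s / μ).im = b.im + s.im / μ := by
    intro s
    rw [add_im, div_ofReal_im]
  have hlow : ∀ s : ℂ, ‖s‖ ≤ 3 * ρ → (b + s / μ).im ≤ -τ - 1 := by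
    intro s hs
    have h1 : s.im / μ ≤ 3 * ρ / μ := by
      gcongr
      exact ((le_abs_self _).trans (abs_im_le_norm s)).trans hs
    rw [him]
    linarith
  have hgb0 : 0 < ‖g b‖ := norm_pos_iff.2 hgb
  have hns : ∀ s : ℂ, ‖s / (μ : ℂ)‖ = ‖s‖ / μ := by
    intro s
    rw [norm_div, norm_real, Real.norm_of_nonneg hμ0.le]
  refine ⟨μ, b, hμ0, hgb, ?_, ?_, ?_⟩
  · have h1 : ρ / μ ≤ 3 * ρ / μ := by gcongr; linarith
    linarith
  · intro s hs
    set h : ℂ → ℂ := fun s => g (b + s / μ) * exp (s * I) / g b with hh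
    have h0 : h 0 = 1 := by
      simp only [hh, zero_div, add_zero, zero_mul, exp_zero, mul_one]
      exact div_self hgb
    have hd : DifferentiableOn ℂ h (ball 0 (3 * ρ)) := by
      intro z hz
      have h1 : (b + z / μ).im < 0 := by
        linarith [hlow z (mem_ball_zero_iff.1 hz).le]
      have h2 : DifferentiableAt ℂ g (b + z / μ) :=
        hg.differentiableAt ((isOpen_lt continuous_im continuous_const).mem_nhds h1)
      have h3 : DifferentiableAt ℂ (fun s : ℂ => g (b + s / μ)) z :=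
        h2.comp z (by fun_prop)
      have h4 : DifferentiableAt ℂ (fun s : ℂ => exp (s * I)) z := by fun_prop
      exact ((h3.mul h4).div_const _).differentiableWithinAt
    have hb1 : ∀ z ∈ ball (0 : ℂ) (3 * ρ), ‖h z‖ ≤ Real.exp (η' / 10) := by
      intro z hz
      have hz' := (mem_ball_zero_iff.1 hz).le
      have h1 := hB (b + z / μ) (by linarith [hlow z hz'])
      rw [add_sub_cancel_left, hns, him, add_sub_cancel_left] at h1
      have h2 : μ * (z.im / μ) + μ₀ * e' * (‖z‖ / μ) ≤ z.im + η' / 10 := by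
        have h3 : μ * (z.im / μ) = z.im := by field_simp
        have h4 : μ₀ * e' * (‖z‖ / μ) ≤ μ * e' * (3 * ρ / μ) := by gcongr
        have h5 : μ * e' * (3 * ρ / μ) = 3 * (e' * ρ) := by field_simp
        linarith
      have h3 : ‖exp (z * I)‖ = Real.exp (-z.im) := by
        rw [norm_exp, mul_I_re]
      simp only [hh]
      rw [norm_div, norm_mul, h3, div_le_iff₀ hgb0]
      calc ‖g (b + z / μ)‖ * Real.exp (-z.im)
          ≤ ‖g b‖ * Real.exp (z.im + η' / 10) * Real.exp (-z.im) := by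
            gcongr
            exact h1.trans (by gcongr)
        _ = Real.exp (η' / 10) * ‖g b‖ := by
            rw [mul_assoc, ← Real.exp_add, mul_comm]
            congr 2
            ring
    have h5 := (P097M.har (fun z => (Real.exp (η' / 10) : ℂ) - h z) 0 (3 * ρ)
      (hd.const_sub _) (fun z hz => by
        have h6 := (re_le_norm (h z)).trans (hb1 z hz)
        rw [sub_re, ofReal_re]
        linarith) s (mem_ball_zero_iff.2 (by linarith))).2.2
    simp only [h0, sub_zero, sub_re, ofReal_re, one_re] at h5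
    have h6 : ‖((Real.exp (η' / 10) : ℂ) - h s) - ((Real.exp (η' / 10) : ℂ) - 1)‖ = ‖h s - 1‖ := by
      rw [← norm_neg]
      congr 1
      ring
    rw [h6] at h5
    have h7 : Real.exp (η' / 10) - 1 ≤ η' / 5 := by
      have h8 := Real.abs_exp_sub_one_le (x := η' / 10) (by rw [abs_of_pos (by positivity)]; linarith)
      rw [abs_of_pos (show 0 < η' / 10 by positivity)] at h8
      linarith [le_abs_self (Real.exp (η' / 10) - 1)]
    have h8 : 0 ≤ Real.exp (η' / 10) - 1 := by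
      linarith [Real.one_le_exp (show 0 ≤ η' / 10 by positivity)]
    have h9 : ‖h s - 1‖ * (2 * ρ) ≤ η * (2 * ρ) := by
      calc ‖h s - 1‖ * (2 * ρ) ≤ ‖h s - 1‖ * (3 * ρ - ‖s‖) := by gcongr; linarith
        _ ≤ 2 * ‖s‖ * (Real.exp (η' / 10) - 1) := h5
        _ ≤ 2 * ρ * η := by gcongr; linarith
        _ = η * (2 * ρ) := by ring
    exact le_of_mul_le_mul_right h9 (by positivity)
  · intro s z hs hv hre
    obtain ⟨t, ht⟩ : ∃ t : ℝ, t = (b + s / μ).im - z.im := ⟨_, rfl⟩
    rw [← ht] at hv hre ⊢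
    have ht0 : 0 < t := by
      by_contra h
      have : μ * t ≤ 0 := mul_nonpos_of_nonneg_of_nonpos hμ0.le (not_lt.1 h)
      linarith
    have h1 := hB z (by linarith [hlow s (by linarith)])
    have h2 : ‖z - b‖ ≤ 2 * t + ρ / μ := by
      have h3 : ‖z - b‖ ≤ ‖z - (b + s / μ)‖ + ‖s / (μ : ℂ)‖ := by
        have h4 := norm_add_le (z - (b + s / μ)) (s / μ)
        have h5 : z - (b + s / μ) + s / μ = z - b := by ring
        rwa [h5] at h4
      have h4 := norm_le_abs_re_add_abs_im (z - (b + s / μ))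
      rw [sub_re, sub_im] at h4
      have h5 : |z.im - (b + s / μ).im| = t := by
        rw [abs_sub_comm, ← ht, abs_of_pos ht0]
      have h6 : ‖s‖ / μ ≤ ρ / μ := by gcongr
      rw [hns] at h3
      linarith
    have h3 : μ * (z.im - b.im) + μ₀ * e' * ‖z - b‖ ≤ s.im + (-(14 / 15) * (μ * t) + 1 / 30) := by
      have h4 : μ * (z.im - b.im) = s.im - μ * t := by
        rw [ht, him]
        field_simp
        ring
      have h5 : μ₀ * e' * ‖z - b‖ ≤ μ * e' * (2 * t + ρ / μ) := by gcongr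
      have h6 : μ * e' * (2 * t + ρ / μ) = 2 * e' * (μ * t) + e' * ρ := by field_simp
      have h7 : 2 * e' * (μ * t) ≤ 2 * (1 / 30) * (μ * t) := by gcongr
      linarith
    obtain ⟨v, hvd⟩ : ∃ v : ℝ, v = μ * t := ⟨_, rfl⟩
    rw [← hvd] at hv h3 ⊢
    have h4 : ‖g z‖ ≤ ‖g b‖ * Real.exp s.im * Real.exp (-(14 / 15) * v + 1 / 30) := by
      rw [mul_assoc, ← Real.exp_add]
      exact h1.trans (by gcongr)
    have h5 : v ≤ Real.exp v := by linarith [Real.add_one_le_exp v]
    have h6 : Real.exp (-(14 / 15) * v + 1 / 30) ^ 4 * Real.exp v ^ 3 ≤ 1 := by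
      rw [← Real.exp_nat_mul, ← Real.exp_nat_mul, ← Real.exp_add, Real.exp_le_one_iff]
      push_cast
      linarith
    calc ‖g z‖ ^ 4 * v ^ 3
        ≤ (‖g b‖ * Real.exp s.im * Real.exp (-(14 / 15) * v + 1 / 30)) ^ 4 * Real.exp v ^ 3 := by
          gcongr
      _ = (‖g b‖ * Real.exp s.im) ^ 4 *
          (Real.exp (-(14 / 15) * v + 1 / 30) ^ 4 * Real.exp v ^ 3) := by ring
      _ ≤ (‖g b‖ * Real.exp s.im) ^ 4 * 1 := by gcongr
      _ = (‖g b‖ * Real.exp s.im) ^ 4 := mul_one _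

end Vale.Agent.P097F.B
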