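import Vale.Agent.P097F.B.Asm
import Vale.Agent.P097F.B.Cbau
import Vale.Agent.P097F.B.Cbu
import Vale.Agent.P097F.B.Lvx
import Vale.Agent.P097F.B.Nox
import Vale.Agent.P097F.B.Tch0
import Vale.Agent.P097F.B.Xm
import Vale.Agent.P097F.B.Qz
import Vale.Agent.P097F.B.Cone
import Vale.Agent.P097F.B.Lim

/-!
# P097F.B: the limit of the windows does not decay exponentially
-/

namespace Vale.Agent.P097F.B

theorem cbuC : S_CBU := cbu cbau

theorem bb : Spec_B := b_of (nox (lvx cbuC)) (xm tch0) qz (lim cone)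

end Vale.Agent.P097F.B
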