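import Vale.Agent.P097F.B.Defs
import Vale.Agent.P097S.Asm

/-!
# P097F.B: the assembly of the block from the rows
-/

set_option linter.all false

noncomputable section

namespace Vale.Agent.P097F.B

open Filter Topology Set Metric Complex Vale.Agent.P097N
open Vale.Agent.P097Top (Cur Sol0)

theorem sol_half {θ H : ℂ → ℂ} {κ : ℝ} {Y : ℂ × ℂ → ℂ} (S : Sol0 θ H κ Y) :
    Sol0 θ H (κ / 2) Y := by
  have k0 := S.pos
  have s1 : P097T.Strip (κ / 2) ⊆ P097T.Strip κ := fun x hx =>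
    lt_of_lt_of_le hx (by linarith : κ / 2 ≤ κ)
  have s2 : P097T.Strip (κ / 2) ×ˢ ball (0 : ℂ) (κ / 2) ⊆ P097T.Strip κ ×ˢ ball (0 : ℂ) κ :=
    prod_mono s1 (ball_subset_ball (by linarith))
  exact ⟨by linarith, S.an.mono s2, fun q hq => S.bd q (s2 hq), fun q hq => S.per q (s2 hq),
    fun q hq => S.ev q (s2 hq), fun x w hw => S.re x w (by linarith),
    fun q hq a b => S.law q (s2 hq) (s1 a) (s1 b)⟩

theorem b_of (nox : S_NOX) (xm : S_XM) (qz : S_QZ) (lim : S_LIM) : Spec_B := by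
  intro R c κ τ θ H Q g Y l s d u C S hκ nl W ne τ0 De
  have D := P097S.dt_of C (sol_half S) (by linarith [S.pos])
  obtain ⟨ρ, η, Λ, ρ1, η0, N⟩ := nox R c (κ / 2) θ H Q Y C D (by linarith)
  obtain ⟨μ, b, X⟩ := xm g τ W.dg ne τ0 De ρ (η / 2) ρ1 (by linarith)
  obtain ⟨G, m, y, h1, h2⟩ := lim R ρ η μ θ Q g b l s d u C.rpos nl W
    (qz R c θ H Q g l s d u C W ne) X ρ1 η0 Λ
  exact N G m y h1 h2

end Vale.Agent.P097F.B
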