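import Vale.Agent.P097S.CDefs
import Vale.Agent.P097E.PolyDefs
import Vale.Agent.P097M.Defs
import Vale.Agent.P097D.Defs

/-!
# P097F.B: the limit of the windows does not decay exponentially (definitions and statements)
-/

set_option linter.all false

noncomputable section

namespace Vale.Agent.P097F.B

open Filter Topology Set Metric Complex Vale.Agent.P097N
open Vale.Agent.P097S (Dt Cn Kc Ch Fw om)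
open Vale.Agent.P097Top (Cur Sol0)
open Vale.Agent.P097E (wc Lv)

/-- the point of the strip with window coordinate `X` -/
def pw (R s d : ℝ) (X : ℂ) : ℂ := s + R * I + d * X

/-- a sequence of windows with limit `g` -/
structure Wq (θ Q : ℂ → ℂ) (R : ℝ) (l : Filter ℕ) (s d u : ℕ → ℝ) (g : ℂ → ℂ) : Prop where
  d0 : ∀ n, 0 < d n
  u0 : ∀ n, 0 < u n
  dl : Tendsto d l (𝓝 0)
  ul : Tendsto (fun n => u n / d n) l (𝓝 0)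
  dg : DifferentiableOn ℂ g {X | X.im < 0}
  cg : TendstoLocallyUniformlyOn (fun n X => u n * deriv θ (pw R (s n) (d n) X)) g l {X | X.im < 0}
  far : ∃ C : ℝ, ∀ᶠ n in l, ∀ y : ℂ, 0 ≤ y.im → d n ≤ R - y.im → |y.re - s n| ≤ 2 * (R - y.im) →
    (P097M.Gs (deriv θ) Q y * (u n * ((R - y.im) / d n)) ^ 2) ^ 5 ≤ C * ((R - y.im) / d n) ^ 2

/-- THE BLOCK -/
def Spec_B : Prop := ∀ (R c κ τ : ℝ) (θ H Q g : ℂ → ℂ) (Y : ℂ × ℂ → ℂ) (l : Filter ℕ)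
  (s d u : ℕ → ℝ), Cur R c θ H Q → Sol0 θ H κ Y → 2 * κ ≤ R → l.NeBot → Wq θ Q R l s d u g →
  (∃ y : ℂ, y.im < 0 ∧ g y ≠ 0) → 0 < τ → ¬ P097D.Decay g τ

/-- an exponential level of the curve: point `y`, scale `m`, size `G` -/
structure XL (θ Q : ℂ → ℂ) (R ρ η G m : ℝ) (y : ℂ) : Prop where
  m0 : 0 < m
  G0 : 0 < G
  top : y.im + ρ * m ≤ R
  hi : 3 * R / 4 ≤ y.im - ρ * m
  val : ‖deriv θ y‖ = G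
  wv : ∀ s : ℂ, ‖s‖ ≤ ρ → ‖deriv θ (y + m * s) * exp (s * I) / deriv θ y - 1‖ ≤ η
  q : ∀ s : ℂ, ‖s‖ ≤ ρ → ‖Q (y + m * s)‖ ≤ G ^ 2 * Real.exp (-ρ)
  cone : ∀ s : ℂ, ‖s‖ ≤ ρ →
    Kc (y + m * s).im θ Q (y + m * s).re 1 m (2 * m * G * Real.exp s.im)

/-- an exponential level of the limit: point `b`, rate `μ` -/
structure XM (g : ℂ → ℂ) (ρ η μ : ℝ) (b : ℂ) : Prop where
  μ0 : 0 < μ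
  ne : g b ≠ 0
  top : b.im + ρ / μ ≤ -1
  wv : ∀ s : ℂ, ‖s‖ ≤ ρ → ‖g (b + s / μ) * exp (s * I) / g b - 1‖ ≤ η
  dom : ∀ s z : ℂ, ‖s‖ ≤ ρ → 1 ≤ μ * ((b + s / μ).im - z.im) →
    |z.re - (b + s / μ).re| ≤ (b + s / μ).im - z.im →
    ‖g z‖ ^ 4 * (μ * ((b + s / μ).im - z.im)) ^ 3 ≤ (‖g b‖ * Real.exp s.im) ^ 4

/-! ## The rows -/

/-- `P097S.CBA` with constants that do not depend on the height `r ≤ R` of the vertex -/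
def S_CBAU : Prop := ∀ R κ a ε E C₀ m₀ : ℝ, 0 < κ → 2 * κ ≤ R → 0 < a → a ≤ 1 → 0 < ε → ε ≤ 1 →
  1 ≤ E → 0 ≤ C₀ → 0 < m₀ → ∃ a₁ c : ℝ, 0 < a₁ ∧ a₁ ≤ a / 4 ∧ 0 < c ∧ c * R ≤ κ ∧
  ∀ r : ℝ, 2 * κ ≤ r → r ≤ R →
  ∀ (Φ Y : ℂ × ℂ → ℂ) (s d A : ℝ) (ω : ℝ → ℝ), 0 < d → d ≤ r → 1 ≤ A → P097S.Wt ω →
    (∀ τ, d ≤ τ → ω τ * (τ * d) ≤ A ^ 2) → DifferentiableOn ℂ Y (St κ ×ˢ ball 0 κ) →
    (∀ x ∈ St κ, ∀ w ∈ ball (0 : ℂ) κ, Y (x, -w) = Y (x, w)) →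
    (∀ (w : ℂ) (T : ℝ), 3 * d ≤ T → P097S.Sm m₀ w r κ T E C₀ ω →
      Fw Φ (fun x => Y (x, w)) w r κ s a T ε E C₀ ω) →
    ∀ w : ℂ, w ≠ 0 → ‖w‖ < c * d / A → ∃ y : ℂ → ℂ,
      DifferentiableOn ℂ y (Cn r s a₁ (8 * d) (κ / 4)) ∧ ∀ x ∈ Cn r s a₁ (8 * d) (κ / 4),
        (x.im < κ / 2 → y x = Y (x, w)) ∧ ‖y x - x‖ ≤ ε * (r - x.im)

/-- `P097S.ENV`, uniform in the height of the vertex -/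
def S_ENVU : Prop := ∀ θ h Q Y c R κ, Dt θ h Q Y c R κ → ∀ a : ℝ, 0 < a → a ≤ 1 →
  ∃ ε E C₀ m₀ : ℝ, 0 < ε ∧ ε ≤ 1 / 8 ∧ 1 ≤ E ∧ 0 ≤ C₀ ∧ 0 < m₀ ∧ ∀ r : ℝ, 2 * κ ≤ r → r ≤ R →
    ∀ s d A : ℝ, 0 < d → 1 ≤ A → Kc r θ Q s a d A → ∀ (w : ℂ) (T : ℝ), 3 * d ≤ T →
      P097S.Sm m₀ w r κ T E C₀ (om A d) →
      Fw (Ph θ h) (fun x => Y (x, w)) w r κ s (a / 2) T ε E C₀ (om A d)

/-- the cone baseline below a vertex at any height -/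
def S_CBU : Prop := ∀ θ h Q Y c R κ, Dt θ h Q Y c R κ → ∀ a : ℝ, 0 < a → a ≤ 1 →
  ∃ a₁ c₁ : ℝ, 0 < a₁ ∧ a₁ ≤ a / 8 ∧ 0 < c₁ ∧ ∀ r s d A : ℝ, 2 * κ ≤ r → r ≤ R → 0 < d → d ≤ r →
    1 ≤ A → Kc r θ Q s a d A → ∃ Z, Ch θ h Y r κ s a₁ (8 * d) (c₁ * d / A) Z

/-- the vertex map at a level -/
def S_LVX : Prop := ∀ θ h Q Y c R κ, Dt θ h Q Y c R κ → 4 * κ ≤ R → ∃ L M : ℝ, 0 ≤ M ∧
  ∀ R₀ ρ : ℝ, |R₀| + 14 ≤ ρ → ∃ Λ : ℝ, ∀ (η G m : ℝ) (y : ℂ), Λ ≤ m * G → XL θ Q R ρ η G m y →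
    ∃ Z : ℂ × ℂ → ℂ, Lv (wc (deriv θ) m y θ) (wc (deriv θ) m y h) (m * G)⁻¹ R₀ L M Z

/-- there is no high level -/
def S_NOX : Prop := ∀ (R c κ : ℝ) (θ H Q : ℂ → ℂ) (Y : ℂ × ℂ → ℂ), Cur R c θ H Q →
  Dt θ H Q Y c R κ → 4 * κ ≤ R → ∃ ρ η Λ : ℝ, 1 ≤ ρ ∧ 0 < η ∧
    ∀ (G m : ℝ) (y : ℂ), Λ ≤ m * G → ¬ XL θ Q R ρ η G m y

/-- the maximum principle for bounded functions in a half plane -/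
def S_PLH : Prop := ∀ (f : ℂ → ℂ) (τ B C : ℝ), DifferentiableOn ℂ f {y | y.im < 0} → 0 < τ →
  (∀ y : ℂ, y.im ≤ -τ → ‖f y‖ ≤ B) → (∀ y : ℂ, y.im = -τ → ‖f y‖ ≤ C) →
  ∀ y : ℂ, y.im ≤ -τ → ‖f y‖ ≤ C

/-- touching -/
def S_TCH : Prop := ∀ (g : ℂ → ℂ) (τ : ℝ), DifferentiableOn ℂ g {y | y.im < 0} →
  (∃ y : ℂ, y.im < 0 ∧ g y ≠ 0) → 0 < τ → P097D.Decay g τ → ∃ μ₀ : ℝ, 0 < μ₀ ∧
  ∀ e D : ℝ, 0 < e → ∃ (μ : ℝ) (b : ℂ), μ₀ ≤ μ ∧ b.im ≤ -D ∧ g b ≠ 0 ∧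
    ∀ y : ℂ, y.im ≤ -τ → ‖g y‖ ≤ ‖g b‖ * Real.exp (μ * (y.im - b.im) + e * ‖y - b‖)

/-- levels of the limit -/
def S_XM : Prop := ∀ (g : ℂ → ℂ) (τ : ℝ), DifferentiableOn ℂ g {y | y.im < 0} →
  (∃ y : ℂ, y.im < 0 ∧ g y ≠ 0) → 0 < τ → P097D.Decay g τ →
  ∀ ρ η : ℝ, 1 ≤ ρ → 0 < η → ∃ (μ : ℝ) (b : ℂ), XM g ρ η μ b

/-- the potential is negligible in the windows -/
def QZ (Q : ℂ → ℂ) (R : ℝ) (l : Filter ℕ) (s d u : ℕ → ℝ) : Prop :=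
  TendstoLocallyUniformlyOn (fun n X => (u n : ℂ) ^ 2 * Q (pw R (s n) (d n) X)) (fun _ => 0) l
    {X | X.im < 0}

def S_QZ : Prop := ∀ (R c : ℝ) (θ H Q g : ℂ → ℂ) (l : Filter ℕ) (s d u : ℕ → ℝ), Cur R c θ H Q →
  Wq θ Q R l s d u g → (∃ y : ℂ, y.im < 0 ∧ g y ≠ 0) → QZ Q R l s d u

/-- the cone bounds -/
def S_CONE : Prop := ∀ (R ρ η μ : ℝ) (θ Q g : ℂ → ℂ) (b : ℂ) (l : Filter ℕ) (s d u : ℕ → ℝ),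
  Wq θ Q R l s d u g → QZ Q R l s d u → XM g ρ η μ b → 1 ≤ ρ → ∀ᶠ n in l, ∀ σ : ℂ, ‖σ‖ ≤ ρ →
    Kc (pw R (s n) (d n) b + (d n / μ : ℝ) * σ).im θ Q (pw R (s n) (d n) b + (d n / μ : ℝ) * σ).re
      1 (d n / μ) (2 * (d n / μ) * ‖deriv θ (pw R (s n) (d n) b)‖ * Real.exp σ.im)

/-- levels of the curve -/
def S_LIM : Prop := ∀ (R ρ η μ : ℝ) (θ Q g : ℂ → ℂ) (b : ℂ) (l : Filter ℕ) (s d u : ℕ → ℝ),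
  0 < R → l.NeBot → Wq θ Q R l s d u g → QZ Q R l s d u → XM g ρ (η / 2) μ b → 1 ≤ ρ → 0 < η →
  ∀ Λ : ℝ, ∃ (G m : ℝ) (y : ℂ), Λ ≤ m * G ∧ XL θ Q R ρ η G m y

end Vale.Agent.P097F.B
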