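import Vale.Agent.P097F.Defs
import Vale.Agent.P097F.B.Defs
import Vale.Agent.P097Mo.Cc

/-!
# P097F.B: from the windows of the circle machine to the block
-/

set_option linter.all false

noncomputable section

namespace Vale.Agent.P097F

open Filter Topology Set Metric Complex
open Vale.Agent.P097D (Lo Decay)
open Vale.Agent.P097W (Envl)

variable {X : DD} {a : ℝ → ℝ} {j : ℕ} {M : ℝ} {𝒰 : Ultrafilter ℕ} {u s : ℕ → ℝ} {g : ℂ → ℂ}

/-- the unit of the windows tends to zero -/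
theorem Win.br_dl (w : Win X a j M 𝒰 u s g) : Tendsto (fun n => X.η (u n)) atTop (𝓝 0) := by
  obtain ⟨C, hC⟩ := X.dat.pw
  refine tendsto_order.2 ⟨fun b hb => .of_forall fun n => hb.trans (w.pk n).2.1, fun b hb => ?_⟩
  have t : Tendsto (fun n => C * X.ep (u n)) atTop (𝓝 0) := by simpa using w.ep0.const_mul C
  filter_upwards [t.eventually (gt_mem_nhds (pow_pos hb X.p))] with n hn
  have e0 := (w.pk n).2.1
  have h1 := hC _ (w.pk n).1
  by_contra k
  have h2 : b ^ X.p ≤ X.η (u n) ^ X.p := pow_le_pow_left₀ hb.le (not_lt.1 k) _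
  rw [DD.ep, ← mul_div_assoc, div_lt_iff₀ e0] at hn
  rw [pow_succ] at h1
  nlinarith

theorem DD.br_der (X : DD) {u s : ℝ} (e0 : 0 < X.η u) {z : ℂ} (hz : z ∈ X.Uw u s) :
    (X.ep u : ℂ) * deriv (X.θw u s) z = X.gw u s z := by
  have op : IsOpen (P097T.Strip X.r) := isOpen_lt (by fun_prop) continuous_const
  have h1 : HasDerivAt (X.wy u s) (X.η u * 1) z :=
    ((hasDerivAt_id z).const_mul _).const_add _
  have h2 := ((X.dat.cur.dθ.differentiableAt (op.mem_nhds hz)).hasDerivAt.comp z h1).deriv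
  have e : (X.η u : ℂ) ≠ 0 := ofReal_ne_zero.2 e0.ne'
  rw [show X.θw u s = X.θ ∘ X.wy u s from rfl, h2, DD.ep, DD.gw]
  push_cast
  field_simp

theorem Win.br_cc (w : Win X a j M 𝒰 u s g) :
    P097Mo.CC 𝒰 (fun n => X.gw (u n) (s n)) g (Lo 0) := by
  intro x hx v hv
  obtain ⟨ρ, ρ0, hρ⟩ := w.seq.ex x hx
  refine (w.seq.cc x hx v hv).congr' ?_
  filter_upwards [hρ, hv.eventually (ball_mem_nhds x ρ0)] with n h1 h2
  exact X.br_der (w.pk n).2.1 (h1 h2)

theorem Win.br_tlu (w : Win X a j M 𝒰 u s g) :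
    TendstoLocallyUniformlyOn (fun n => X.gw (u n) (s n)) g 𝒰 (Lo 0) := by
  rw [tendstoLocallyUniformlyOn_iff_forall_isCompact w.seq.op]
  intro K hK cK
  rw [Metric.tendstoUniformlyOn_iff]
  intro e e0
  filter_upwards [P097Mo.cc_unif 𝒰 w.br_cc cK hK (w.seq.dg.continuousOn.mono hK) (half_pos e0)]
    with n hn z hz
  rw [dist_comm, dist_eq_norm]
  linarith [hn z hz]

theorem br_pow {x y : ℝ} {k l : ℕ} (x0 : 0 ≤ x) (y1 : 1 ≤ y) (kl : k ≤ l) (h : x ^ l ≤ y) :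
    x ^ k ≤ y := by
  rcases le_total x 1 with e | e
  · exact (pow_le_one₀ x0 e).trans y1
  · exact (pow_le_pow_right₀ e kl).trans h

theorem Win.br_wq {N : ℕ} (E : Envl X.η X.u₀ X.p N a) (w : Win X a j M 𝒰 u s g) (hj : 10 ≤ j)
    (hN : 10 ≤ N) : B.Wq X.θ X.Q X.r 𝒰 s (fun n => X.η (u n)) u g := by
  refine ⟨fun n => (w.pk n).2.1, fun n => (w.pk n).1.1, w.br_dl.mono_left w.le,
    w.ep0.mono_left w.le, w.seq.dg, w.br_tlu, (1 + 9 * |M|) * 2 ^ 10, ?_⟩
  filter_upwards [w.p0] with n hn y y0 y1 y2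
  obtain ⟨⟨u0, -⟩, d0, pk⟩ := w.pk n
  simp only [Int.cast_zero, mul_zero, add_zero] at hn
  set d := X.η (u n)
  set t := X.r - y.im
  have t0 : 0 < t := d0.trans_le y1
  have G := hn y y0 (sub_pos.1 t0)
  have τ1 : 1 ≤ t / d := (one_le_div d0).2 y1
  have a0 : 0 < a t := one_pos.trans_le (E.one t)
  have G0 : 0 ≤ P097M.Gs (deriv X.θ) X.Q y := by unfold P097M.Gs; positivity
  set x := P097M.Gs (deriv X.θ) X.Q y * t ^ 2 / a t ^ 2 with hx
  have x0 : 0 ≤ x := by positivity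
  have h1 : x ^ 10 ≤ ((1 + 9 * |M|) * (t / d)) ^ 2 := by
    refine br_pow x0 (one_le_pow₀ (by nlinarith [abs_nonneg M])) hj (G.trans ?_)
    rw [max_eq_left (((div_le_one t0).2 y1).trans τ1)]
    have k : 1 + |y.re - s n| / t ≤ 3 := by
      rw [← div_le_iff₀ t0] at y2
      linarith
    calc _ ≤ |M| * (t / d * 3) ^ 2 := by gcongr; exact le_abs_self M
      _ = 9 * |M| * (t / d) ^ 2 := by ring
      _ ≤ (1 + 9 * |M|) ^ 2 * (t / d) ^ 2 := by gcongr; nlinarith [abs_nonneg M]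
      _ = _ := by ring
  have h2 : x ^ 5 ≤ (1 + 9 * |M|) * (t / d) :=
    le_of_pow_le_pow_left₀ two_ne_zero (by positivity) (by rwa [← pow_mul])
  set z := a t * u n / (2 * d) with hz
  have h3 : z ^ 10 ≤ t / d := by
    refine br_pow (by positivity) τ1 hN ?_
    have k1 := E.dec t d d0 y1
    have k2 : a d ^ N * u n ^ N ≤ (2 * d) ^ N := by
      rw [← mul_pow]
      exact pow_le_pow_left₀ (mul_nonneg (zero_le_one.trans (E.one d)) u0.le) pk N
    rw [hz, div_pow, mul_pow, div_le_div_iff₀ (by positivity) d0]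
    calc _ = a t ^ N * d * u n ^ N := by ring
      _ ≤ a d ^ N * t * u n ^ N := by gcongr
      _ = t * (a d ^ N * u n ^ N) := by ring
      _ ≤ _ := by gcongr
  calc _ = x ^ 5 * (2 ^ 10 * z ^ 10) := by rw [hx, hz]; field_simp
    _ ≤ (1 + 9 * |M|) * (t / d) * (2 ^ 10 * (t / d)) := by gcongr
    _ = _ := by ring

theorem specB (h : B.Spec_B) : Spec_B := fun X =>
  ⟨10, fun j hj N hN a M 𝒰 u s g E w τ τ0 =>
    h X.r X.c X.κ τ X.θ X.H X.Q g X.Y₀ 𝒰 s _ u X.dat.cur X.dat.fam.sol X.dat.fam.two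
      𝒰.neBot (w.br_wq E hj (hj.trans hN)) w.ne τ0⟩

end Vale.Agent.P097F
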