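import Vale.Agent.P097F.B.All
import Vale.Agent.P097F.B.Br

/-!
# P097F: block B, closed
-/

namespace Vale.Agent.P097F

theorem blockB : Spec_B := specB B.bb

end Vale.Agent.P097F
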