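import Vale.Agent.P097F.B.Defs

/-!
# P097F.B: touching
-/

set_option linter.all false

noncomputable section

namespace Vale.Agent.P097F.B

open Filter Topology Set Metric Complex

theorem plh : S_PLH := by
  intro f τ B C d τ0 hB hC y hy
  have im1 : ∀ z : ℂ, (-(τ : ℂ) * I - I * z).im = -τ - z.re := fun z => by simp
  have dd : DifferentiableOn ℂ (fun z : ℂ => f (-(τ : ℂ) * I - I * z)) {z | -τ < z.re} :=
    d.comp (by fun_prop) fun z hz => by
      show (-(τ : ℂ) * I - I * z).im < 0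
      rw [im1]
      linarith [show -τ < z.re from hz]
  have k := PhragmenLindelof.right_half_plane_of_bounded_on_real
    (f := fun z : ℂ => f (-(τ : ℂ) * I - I * z)) (C := C) (z := I * y - τ)
    (DifferentiableOn.diffContOnCl (dd.mono (by
      rw [closure_setOf_lt_re]
      exact fun z hz => by
        show -τ < z.re
        linarith [show 0 ≤ z.re from hz])))
    ⟨0, by norm_num, 0, Asymptotics.IsBigO.of_bound B (by
      refine eventually_inf_principal.2 (Eventually.of_forall fun z hz => ?_)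
      simp only [zero_mul, Real.exp_zero, norm_one, mul_one]
      exact hB _ (by rw [im1]; linarith [show 0 < z.re from hz]))⟩
    ⟨B, eventually_map.2 ((eventually_ge_atTop 0).mono fun x hx =>
      hB _ (by rw [im1, ofReal_re]; linarith))⟩
    (fun x => hC _ (by rw [im1]; simp)) (by simp; linarith)
  rwa [show -(τ : ℂ) * I - I * (I * y - τ) = y by
    linear_combination (-y) * I_mul_I] at k

/-- a point that dominates up to a small exponential -/
theorem eke {φ : ℂ → ℝ} {S : Set ℂ} {B e : ℝ} {y₀ : ℂ} (hS : IsClosed S) (c : ContinuousOn φ S)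
    (e0 : 0 < e) (m : y₀ ∈ S) (p : 0 < φ y₀) (bd : ∀ y ∈ S, φ y ≤ B * Real.exp (e / 2 * ‖y‖)) :
    ∃ b ∈ S, φ y₀ ≤ φ b ∧ ∀ y ∈ S, φ y ≤ φ b * Real.exp (e * ‖y - b‖) := by
  have B0 : 0 ≤ B := by
    by_contra k
    nlinarith [bd y₀ m, Real.exp_pos (e / 2 * ‖y₀‖)]
  have t : Tendsto (fun x : ℂ => B * Real.exp (e / 2 * ‖y₀‖) * Real.exp (-(e / 2 * dist x y₀)))
      (cocompact ℂ) (𝓝 (B * Real.exp (e / 2 * ‖y₀‖) * 0)) :=
    (Real.tendsto_exp_neg_atTop_nhds_zero.comp
      ((tendsto_dist_right_cocompact_atTop y₀).const_mul_atTop (by positivity))).const_mul _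
  rw [mul_zero] at t
  obtain ⟨b, hb, mx⟩ := ContinuousOn.exists_isMaxOn'
    (f := fun y => φ y * Real.exp (-(e * ‖y - y₀‖))) (c.mul (by fun_prop)) hS m (by
      refine eventually_inf_principal.2 ((t.eventually (gt_mem_nhds p)).mono fun x hx hs => ?_)
      simp only [sub_self, norm_zero, mul_zero, neg_zero, Real.exp_zero, mul_one]
      refine le_trans ?_ hx.le
      refine (mul_le_mul_of_nonneg_right (bd x hs) (Real.exp_pos _).le).trans ?_
      rw [mul_assoc, mul_assoc, ← Real.exp_add, ← Real.exp_add, dist_eq_norm]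
      refine mul_le_mul_of_nonneg_left (Real.exp_le_exp.2 ?_) B0
      nlinarith [norm_le_norm_add_norm_sub' x y₀])
  have k0 : φ y₀ ≤ φ b * Real.exp (-(e * ‖b - y₀‖)) := by simpa using mx m
  have pb : 0 < φ b := by
    by_contra k
    nlinarith [Real.exp_pos (-(e * ‖b - y₀‖))]
  refine ⟨b, hb, k0.trans (mul_le_of_le_one_right pb.le (Real.exp_le_one_iff.2 ?_)),
    fun y hy => ?_⟩
  · have := norm_nonneg (b - y₀)
    nlinarith
  have k1 : φ y * Real.exp (-(e * ‖y - y₀‖)) ≤ φ b * Real.exp (-(e * ‖b - y₀‖)) := mx hy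
  have k2 := mul_le_mul_of_nonneg_right k1 (Real.exp_pos (e * ‖y - y₀‖)).le
  rw [mul_assoc, mul_assoc, ← Real.exp_add, ← Real.exp_add, neg_add_cancel, Real.exp_zero,
    mul_one] at k2
  refine k2.trans (mul_le_mul_of_nonneg_left (Real.exp_le_exp.2 ?_) pb.le)
  nlinarith [norm_sub_le_norm_sub_add_norm_sub y b y₀]

theorem tch (P : S_PLH) : S_TCH := by
  rintro g τ d ⟨z, z0, gz⟩ τ0 ⟨c, C, c0, hC⟩
  set F : ℂ → ℂ := fun y => g y ^ 8 / (y - I) with hF
  have nI : ∀ y : ℂ, y.im ≤ 0 → 1 - y.im ≤ ‖y - I‖ := fun y hy => by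
    have := abs_im_le_norm (y - I)
    rw [sub_im, I_im, abs_sub_comm] at this
    exact (le_abs_self _).trans this
  have pI : ∀ y : ℂ, y.im ≤ 0 → 0 < ‖y - I‖ := fun y hy => by linarith [nI y hy]
  have dF : DifferentiableOn ℂ F {y | y.im < 0} :=
    (d.pow 8).div (by fun_prop) fun y hy => norm_pos_iff.1 (pI y (le_of_lt hy))
  have eF : ∀ y : ℂ, y.im ≤ 0 → ‖g y‖ ^ 8 = ‖F y‖ * ‖y - I‖ := fun y hy => by
    rw [hF]
    simp only [norm_div, norm_pow]
    rw [div_mul_cancel₀ _ (pI y hy).ne']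
  have b0 : ∀ y : ℂ, y.im ≤ -τ → ‖F y‖ ≤ 3 * |C| * Real.exp (c * y.im) := fun y hy => by
    have y0 : y.im ≤ 0 := by linarith
    refine le_of_mul_le_mul_right ?_ (pI y y0)
    rw [← eF y y0]
    refine (hC y hy).trans ?_
    have h1 : 1 + ‖y‖ ≤ 3 * ‖y - I‖ := by
      have := norm_le_norm_add_norm_sub' y I
      rw [norm_I] at this
      linarith [nI y y0]
    have h2 : C * (1 + ‖y‖) ≤ |C| * (3 * ‖y - I‖) :=
      mul_le_mul (le_abs_self _) h1 (by positivity) (abs_nonneg _)
    nlinarith [Real.exp_pos (c * y.im)]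
  let A : ℝ → Prop := fun l => ∃ B : ℝ, ∀ y : ℂ, y.im ≤ -τ →
    ‖F y‖ * Real.exp (-(l * (y.im + τ))) ≤ B
  have sh : ∀ l, A l → ∀ y : ℂ, y.im ≤ -τ → ‖F y‖ * Real.exp (-(l * (y.im + τ))) ≤ 3 * |C| := by
    rintro l ⟨B, hB⟩ y hy
    have n : ∀ y : ℂ, ‖F y * exp (I * l * (y + τ * I))‖ = ‖F y‖ * Real.exp (-(l * (y.im + τ))) :=
      fun y => by
        rw [norm_mul, norm_exp]
        simp
    rw [← n]
    refine P (fun y => F y * exp (I * l * (y + τ * I))) τ B _ (dF.mul (by fun_prop)) τ0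
      (fun y hy => by rw [n]; exact hB y hy) (fun y hy => ?_) y hy
    rw [n, hy, neg_add_cancel, mul_zero, neg_zero, Real.exp_zero, mul_one]
    refine (b0 y hy.le).trans (mul_le_of_le_one_right (by positivity) (Real.exp_le_one_iff.2 ?_))
    rw [hy]
    nlinarith
  have a0 : A c := ⟨3 * |C|, fun y hy => by
    refine (mul_le_mul_of_nonneg_right (b0 y hy) (Real.exp_pos _).le).trans ?_
    rw [mul_assoc, ← Real.exp_add]
    exact mul_le_of_le_one_right (by positivity) (Real.exp_le_one_iff.2 (by nlinarith))⟩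
  obtain ⟨y₁, m1, g1⟩ : ∃ y : ℂ, y.im < -τ ∧ g y ≠ 0 := by
    by_contra k
    push Not at k
    have o : ∀ t : ℝ, IsOpen {y : ℂ | y.im < t} := fun t => isOpen_lt continuous_im continuous_const
    refine gz ((d.analyticOnNhd (o 0)).eqOn_zero_of_preconnected_of_eventuallyEq_zero
      (convex_halfSpace_im_lt 0).isPreconnected (z₀ := -(τ + 1) * I)
      (by simp; linarith) ?_ z0)
    filter_upwards [(o (-τ)).mem_nhds (show (-((τ : ℂ) + 1) * I).im < -τ by simp)] with y hy
    exact k y hy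
  have F1 : 0 < ‖F y₁‖ := by
    have := eF y₁ (by linarith)
    have h2 : 0 < ‖g y₁‖ ^ 8 := pow_pos (norm_pos_iff.2 g1) 8
    rw [this] at h2
    exact (mul_pos_iff_of_pos_right (pI y₁ (by linarith))).1 h2
  refine ⟨c / 8, by positivity, fun e D e0 => ?_⟩
  have ex : ∃ k : ℕ, ¬ A (c + (k + 1) * (2 * e)) := by
    by_contra k
    push Not at k
    obtain ⟨n, hn⟩ := exists_nat_gt (3 * |C| / (‖F y₁‖ * (2 * e * -(y₁.im + τ))))
    have q : 0 < 2 * e * -(y₁.im + τ) := mul_pos (by positivity) (by linarith)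
    rw [div_lt_iff₀ (mul_pos F1 q)] at hn
    have h1 := sh _ (k n) y₁ m1.le
    have h2 := Real.add_one_le_exp (-((c + (n + 1) * (2 * e)) * (y₁.im + τ)))
    have h3 : 0 < c * -(y₁.im + τ) := mul_pos c0 (by linarith)
    nlinarith [mul_le_mul_of_nonneg_left h2 F1.le]
  obtain ⟨k, k1, k2⟩ : ∃ k : ℕ, A (c + k * (2 * e)) ∧ ¬ A (c + (k + 1) * (2 * e)) := by
    classical
    refine ⟨Nat.find ex, ?_, Nat.find_spec ex⟩
    rcases h : Nat.find ex with _ | n
    · simpa using a0
    · have := Nat.find_min ex (m := n) (by omega)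
      rw [not_not] at this
      exact_mod_cast this
  set l := c + k * (2 * e) with hl
  set D' := max D (1 / (4 * e)) with hD
  have bd : ∀ y : ℂ, y.im ≤ -τ → ‖F y‖ * Real.exp (-((l + 2 * e) * (y.im + τ))) ≤
      3 * |C| * Real.exp (2 * e * -y.im) := fun y hy => by
    rw [show -((l + 2 * e) * (y.im + τ)) = -(l * (y.im + τ)) + -(2 * e * (y.im + τ)) by ring,
      Real.exp_add, ← mul_assoc]
    exact mul_le_mul (sh l k1 y hy) (Real.exp_le_exp.2 (by nlinarith)) (Real.exp_pos _).le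
      (by positivity)
  obtain ⟨y₀, m0, h0⟩ : ∃ y : ℂ, y.im ≤ -τ ∧ 3 * |C| * Real.exp (2 * e * D') <
      ‖F y‖ * Real.exp (-((l + 2 * e) * (y.im + τ))) := by
    by_contra h
    push Not at h
    exact k2 ⟨_, fun y hy => by
      rw [show c + (k + 1) * (2 * e) = l + 2 * e by rw [hl]; ring]
      exact h y hy⟩
  obtain ⟨b, mb, b1, b2⟩ := eke (φ := fun y => ‖F y‖ * Real.exp (-((l + 2 * e) * (y.im + τ))))
    (S := {y | y.im ≤ -τ}) (B := 3 * |C|) (e := 4 * e) (isClosed_le continuous_im continuous_const)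
    ((dF.continuousOn.mono fun y hy => by
      show y.im < 0
      linarith [show y.im ≤ -τ from hy]).norm.mul (by fun_prop)) (by positivity) m0
    (lt_of_le_of_lt (by positivity) h0) fun y hy => (bd y hy).trans
      (mul_le_mul_of_nonneg_left (Real.exp_le_exp.2 (by
        nlinarith [(neg_le_abs _).trans (abs_im_le_norm y)])) (by positivity))
  replace mb : b.im ≤ -τ := mb
  have b3 := h0.trans_le b1
  have dp : D' ≤ -b.im := by
    by_contra h
    push Not at h
    have := (bd b mb).trans (mul_le_mul_of_nonneg_left (Real.exp_le_exp.2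
      (show 2 * e * -b.im ≤ 2 * e * D' by nlinarith)) (by positivity))
    linarith
  have bi : b.im ≤ 0 := by linarith
  refine ⟨(l + 2 * e) / 8, b, ?_, by linarith [le_max_left D (1 / (4 * e))], fun h => ?_,
    fun y hy => ?_⟩
  · have : 0 ≤ (k : ℝ) * (2 * e) := by positivity
    linarith
  · simp only [hF, h] at b3
    norm_num at b3
    nlinarith [abs_nonneg C, Real.exp_pos (2 * e * D')]
  have h1 := mul_le_mul_of_nonneg_right (b2 y hy) (Real.exp_pos ((l + 2 * e) * (y.im + τ))).le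
  rw [mul_assoc, mul_assoc, mul_assoc, ← Real.exp_add, ← Real.exp_add, ← Real.exp_add,
    neg_add_cancel, Real.exp_zero, mul_one] at h1
  have h2 : ‖y - I‖ ≤ ‖b - I‖ * Real.exp (4 * e * ‖y - b‖) := by
    have h3 : 1 ≤ 4 * e * ‖b - I‖ := by
      have := (div_le_iff₀ (by positivity)).1 ((le_max_right D (1 / (4 * e))).trans dp)
      nlinarith [nI b bi]
    have h4 := mul_le_mul_of_nonneg_left (Real.add_one_le_exp (4 * e * ‖y - b‖))
      (norm_nonneg (b - I))
    nlinarith [norm_sub_le_norm_sub_add_norm_sub y b I, norm_nonneg (y - b)]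
  refine le_of_pow_le_pow_left₀ (n := 8) (by norm_num) (by positivity) ?_
  rw [mul_pow, ← Real.exp_nat_mul, eF y (by linarith), eF b bi]
  refine (mul_le_mul h1 h2 (norm_nonneg _) (by positivity)).trans (le_of_eq ?_)
  rw [mul_mul_mul_comm, ← Real.exp_add]
  congr 2
  push_cast
  ring

end Vale.Agent.P097F.B
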